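import Crest.Agent.N334.AC.Iface

/-!
# S0520 part F (helper27): local supermartingales, monitor potentials, witness recursion. DEFINITIONS.
-/

set_option autoImplicit false

open Finset
open scoped Matrix.Norms.L2Operator

namespace Crest.Agent.N334.AC

/-- uniform average over `range N` -/
noncomputable def avg (N : ℕ) (f : ℕ → ℝ) : ℝ := (∑ k ∈ range N, f k) / N

/-- uniform average over `range N`, complex or matrix valued -/
noncomputable def avgV {V : Type} [AddCommGroup V] [Module ℝ V] (N : ℕ) (f : ℕ → V) : V :=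
  ((N : ℝ)⁻¹) • ∑ k ∈ range N, f k

/-- uniform average over independent digits `ξ x ∈ range (m x)` -/
noncomputable def avgP {Λ : Type} [Fintype Λ] [DecidableEq Λ] (m : Λ → ℕ) (f : (Λ → ℕ) → ℝ) : ℝ :=
  (∑ ξ ∈ Fintype.piFinset fun x => range (m x), f ξ) / ∏ x, (m x : ℝ)

/-- A class of "local supermartingales for one step": `mem U φ ch` says that the value `φ` before
the step dominates the values `ch ω` after it, the randomness that matters living in `U`.
`ok` = the outcomes that can occur. -/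
structure Cls (Λ Ω : Type) [DecidableEq Λ] where
  ok : Ω → Prop
  mem : Finset Λ → ℝ → (Ω → ℝ) → Prop
  nonneg : ∀ {U φ ch}, mem U φ ch → 0 ≤ φ ∧ ∀ ω, ok ω → 0 ≤ ch ω
  const : ∀ U c, 0 ≤ c → mem U c fun _ => c
  add : ∀ {U φ ψ ch ch'}, mem U φ ch → mem U ψ ch' → mem U (φ + ψ) fun ω => ch ω + ch' ω
  mul : ∀ {U U' φ ψ ch ch'}, Disjoint U U' → mem U φ ch → mem U' ψ ch' →
    mem (U ∪ U') (φ * ψ) fun ω => ch ω * ch' ω
  mono : ∀ {U U' φ ch}, U ⊆ U' → mem U φ ch → mem U' φ ch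
  le : ∀ {U φ φ' ch ch'}, mem U φ ch → φ ≤ φ' → (∀ ω, ok ω → 0 ≤ ch' ω ∧ ch' ω ≤ ch ω) →
    mem U φ' ch'

section Steps

variable {Λ : Type} [Fintype Λ] [DecidableEq Λ]

/-- LAZY STEP: every `y ∈ A` is closed with probability `dt`, with a uniform digit `k < N`
(outcome `some (y,k)`); nothing happens (outcome `none`) otherwise. -/
def LocA (A : Finset Λ) (N : ℕ) (dt : ℝ) (U : Finset Λ) (φ : ℝ) (ch : Option (Λ × ℕ) → ℝ) : Prop :=
  ∃ (φ0 : ℝ) (κ : Λ → ℝ), 0 ≤ ch none ∧ ch none ≤ φ0 ∧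
    (∀ y ∈ A, ∀ k < N, 0 ≤ ch (some (y, k))) ∧
    (∀ y ∈ A, y ∉ U → ∀ k < N, ch (some (y, k)) ≤ φ0) ∧
    (∀ y ∈ A ∩ U, avg N (fun k => ch (some (y, k))) ≤ φ0 * (1 + κ y)) ∧
    φ0 * Real.exp (dt * ∑ y ∈ A ∩ U, κ y) ≤ φ

/-- outcomes of the lazy step -/
def okA (A : Finset Λ) (N : ℕ) : Option (Λ × ℕ) → Prop
  | none => True
  | some (y, k) => y ∈ A ∧ k < N

/-- expectation of the lazy step -/
noncomputable def exA (A : Finset Λ) (N : ℕ) (dt : ℝ) (ch : Option (Λ × ℕ) → ℝ) : ℝ :=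
  (1 - dt * A.card) * ch none + dt * ∑ y ∈ A, avg N fun k => ch (some (y, k))

/-- PRODUCT STEP: independent uniform digits `ξ x < m x`. -/
def LocB (m : Λ → ℕ) (U : Finset Λ) (φ : ℝ) (ch : (Λ → ℕ) → ℝ) : Prop :=
  ∃ g : (Λ → ℕ) → ℝ, (∀ ξ ξ', (∀ x ∈ U, ξ x = ξ' x) → g ξ = g ξ') ∧
    (∀ ξ, (∀ x, ξ x < m x) → 0 ≤ ch ξ ∧ ch ξ ≤ g ξ) ∧ avgP m g ≤ φ

end Steps

section Pot

/-- time factor of a monitor at time `t ≤ T` -/
noncomputable def tfac (Z T t : ℝ) : ℝ := Real.exp (-Z + Z * (T - t) / (2 * T))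

/-- potential of a real one-sided monitor (threshold `1`) -/
noncomputable def potS (Z T t x : ℝ) : ℝ := Real.exp (Z * x) * tfac Z T t

/-- Hermitian dilation -/
def dil {n : Type} (X : Matrix n n ℂ) : Matrix (n ⊕ n) (n ⊕ n) ℂ :=
  Matrix.fromBlocks 0 X X.conjTranspose 0

/-- potential of a matrix monitor with budget `R` (threshold `‖X‖ = R + 1`) -/
noncomputable def potM {n : Type} [Fintype n] [DecidableEq n] (Z T t R : ℝ) (X : Matrix n n ℂ) : ℝ :=
  (NormedSpace.exp ((Z : ℂ) • dil X)).trace.re * Real.exp (-Z * R) * tfac Z T t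

/-- potential of a complex monitor with budget `R` (threshold `‖z‖ = R + 1`) -/
noncomputable def potC (Z T t R : ℝ) (z : ℂ) : ℝ :=
  2 * Real.cosh (Z * ‖z‖) * Real.exp (-Z * R) * tfac Z T t

end Pot

section Wit

variable {d M : ℕ} [NeZero M]

/-- sum over `m`-point `far`-separated subsets of the ball -/
noncomputable def crowd (m far Rc : ℕ) (f : Tor d M → ℝ) (p : Tor d M) : ℝ := by
  classical
  exact ∑ S ∈ ((tball p Rc).powersetCard m).filter (Sep far), ∏ q ∈ S, f q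

/-- radii of the witness recursion: `r k` influence radius of level `k`, `Rc k` crowding radius,
`m k` crowding number -/
structure Rad where
  r : ℕ → ℕ
  Rc : ℕ → ℕ
  m : ℕ → ℕ
  mono : Monotone r
  le : ∀ k, Rc (k + 1) + r k ≤ r (k + 1)

/-- witness function of level `k` in epoch `cut` -/
noncomputable def Fw (ρ : Rad) (cut : ℕ) (base : ℕ → Tor d M → ℝ) : ℕ → Tor d M → ℝ
  | 0 => base 0
  | k + 1 => fun p => base (k + 1) p +
      if k + 1 ≤ cut then 0 else crowd (ρ.m (k + 1)) (2 * ρ.r k + 1) (ρ.Rc (k + 1)) (Fw ρ cut base k) p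

/-- capture witness of the observer `x`, levels in `[a,b)` -/
noncomputable def Hw (ρ : Rad) (cut : ℕ) (base : ℕ → Tor d M → ℝ) (a b : ℕ) (x : Tor d M) : ℝ :=
  ∑ k ∈ Ico a b, ∑ p ∈ tball x (ρ.r (k + 1)), Fw ρ cut base k p

/-- the global potential -/
noncomputable def Psi (ρ : Rad) (X : Finset (Tor d M)) (k1 K cut : ℕ) (base : ℕ → Tor d M → ℝ) : ℝ :=
  ∏ x ∈ X, Hw ρ cut base 0 k1 x + ∑ x ∈ X, Hw ρ cut base (k1 - 1) (K + 1) x

/-- `p` is crowded by the seeds `P` of level `k` -/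
def Crowded (ρ : Rad) (k : ℕ) (P : Finset (Tor d M)) (p : Tor d M) : Prop :=
  ∃ S ⊆ P ∩ tball p (ρ.Rc (k + 1)), S.card = ρ.m (k + 1) ∧ Sep (2 * ρ.r k + 1) S

end Wit

end Crest.Agent.N334.AC
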