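import Crest.Agent.N334.AC.Mat
import Crest.Agent.N337.KMS.PB
import Crest.Agent.R339.Trot716

/-! # S0520 part F: the Golden-Thompson inequality and trace bounds (helper38) -/

set_option autoImplicit false

open Matrix NormedSpace Filter Topology
open scoped Matrix.Norms.L2Operator

namespace Crest.Agent.N334.AC.GT

open Crest.Agent.N337.KMS

variable {m : Type} [Fintype m] [DecidableEq m]

omit [DecidableEq m] in
theorem trace_gram (X : Matrix m m ℂ) :
    (Xᴴ * X).trace = (nsq fun p : m × m => X p.2 p.1 : ℝ) := by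
  rw [← dot_self]
  simp [Matrix.trace, Matrix.mul_apply, dotProduct, Fintype.sum_prod_type]

omit [DecidableEq m] in
/-- Cauchy-Schwarz for the trace -/
theorem trace_cs (X Y : Matrix m m ℂ) :
    ‖(X * Y).trace‖ ^ 2 ≤ ‖(X * Xᴴ).trace‖ * ‖(Yᴴ * Y).trace‖ := by
  have h := cs (fun p : m × m => Xᴴ p.2 p.1) fun p => Y p.2 p.1
  have e := trace_gram Xᴴ
  rw [conjTranspose_conjTranspose] at e
  rw [e, trace_gram, Complex.norm_real, Complex.norm_real, Real.norm_of_nonneg (nsq_nonneg _),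
    Real.norm_of_nonneg (nsq_nonneg _)]
  convert h using 3
  simp [Matrix.trace, Matrix.mul_apply, dotProduct, Fintype.sum_prod_type]

theorem trace_cyc (X Y : Matrix m m ℂ) (k : ℕ) : ((X * Y) ^ k).trace = ((Y * X) ^ k).trace := by
  cases k with
  | zero => simp
  | succ k =>
    rw [pow_succ, ← Matrix.mul_assoc, mul_pow_mul, Matrix.mul_assoc, trace_mul_comm, pow_succ,
      Matrix.mul_assoc]

/-- the dyadic induction -/
theorem dyadic (k : ℕ) :
    (∀ P : Matrix m m ℂ, ‖(P ^ (2 * 2 ^ k)).trace‖ ≤ ‖((Pᴴ * P) ^ 2 ^ k).trace‖) ∧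
    ∀ A B : Matrix m m ℂ, A.IsHermitian → B.IsHermitian →
      ‖((A * B) ^ 2 ^ k).trace‖ ≤ ‖(A ^ 2 ^ k * B ^ 2 ^ k).trace‖ := by
  induction k with
  | zero =>
    refine ⟨fun P => ?_, fun A B _ _ => by simp⟩
    have h := trace_cs P P
    rw [trace_mul_comm P Pᴴ, ← sq ‖_‖] at h
    simpa [sq] using (sq_le_sq₀ (norm_nonneg _) (norm_nonneg _)).1 h
  | succ k ih =>
    refine ⟨fun P => ?_, fun A B hA hB => ?_⟩
    · have h1 := ih.1 (P * P)
      have h2 := ih.2 (Pᴴ * P) (P * Pᴴ) (isHermitian_conjTranspose_mul_self P)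
        (isHermitian_mul_conjTranspose_self P)
      have h3 := trace_cs ((Pᴴ * P) ^ 2 ^ k) ((P * Pᴴ) ^ 2 ^ k)
      rw [((isHermitian_conjTranspose_mul_self P).pow _).eq,
        ((isHermitian_mul_conjTranspose_self P).pow _).eq, ← pow_add, ← pow_add, trace_cyc P Pᴴ,
        ← sq, ← two_mul, ← pow_succ'] at h3
      have e : (((P * P)ᴴ * (P * P)) ^ 2 ^ k).trace = ((Pᴴ * P * (P * Pᴴ)) ^ 2 ^ k).trace := by
        rw [conjTranspose_mul, Matrix.mul_assoc, trace_cyc]
        simp only [Matrix.mul_assoc]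
      rw [← sq, ← pow_mul, ← pow_succ', sq, e] at h1
      exact h1.trans (h2.trans ((sq_le_sq₀ (norm_nonneg _) (norm_nonneg _)).1 h3))
    · have h1 := ih.1 (A * B)
      have h2 := ih.2 (A * A) (B * B) (by simpa [sq] using hA.pow 2) (by simpa [sq] using hB.pow 2)
      have e : (((A * B)ᴴ * (A * B)) ^ 2 ^ k).trace = ((A * A * (B * B)) ^ 2 ^ k).trace := by
        rw [conjTranspose_mul, hA.eq, hB.eq, Matrix.mul_assoc, trace_cyc]
        simp only [Matrix.mul_assoc]
      rw [← pow_succ', e] at h1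
      rw [← sq, ← sq, ← pow_mul, ← pow_mul, ← pow_succ'] at h2
      rw [← sq, ← sq] at h1
      exact h1.trans h2

omit [Fintype m] [DecidableEq m] in
theorem herm_smul {A : Matrix m m ℂ} (hA : A.IsHermitian) (r : ℝ) : (r • A).IsHermitian := by
  rw [IsHermitian, conjTranspose_smul, hA.eq, star_trivial]

/-- **Golden-Thompson** -/
theorem golden {A B : Matrix m m ℂ} (hA : A.IsHermitian) (hB : B.IsHermitian) :
    (exp (A + B)).trace.re ≤ (exp A * exp B).trace.re := by
  rcases isEmpty_or_nonempty m with h | h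
  · simp
  have e : ∀ (X : Matrix m m ℂ) (k : ℕ), exp (((2 ^ k : ℕ) : ℝ)⁻¹ • X) ^ 2 ^ k = exp X := by
    intro X k
    rw [← Matrix.exp_nsmul, ← Nat.cast_smul_eq_nsmul ℝ, smul_smul, mul_inv_cancel₀ (by positivity),
      one_smul]
  have h1 : Tendsto (fun k : ℕ => ‖((exp (((2 ^ k : ℕ) : ℝ)⁻¹ • A) *
      exp (((2 ^ k : ℕ) : ℝ)⁻¹ • B)) ^ 2 ^ k).trace‖) atTop (𝓝 ‖(exp (A + B)).trace‖) :=
    (((continuous_id.matrix_trace).tendsto _).comp ((R339.Trot.tendsto_trotter A B).comp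
      (tendsto_pow_atTop_atTop_of_one_lt one_lt_two))).norm
  have h2 : ‖(exp (A + B)).trace‖ ≤ ‖(exp A * exp B).trace‖ := le_of_tendsto' h1 fun k => by
    have := (dyadic k).2 _ _ (herm_smul hA ((2 ^ k : ℕ) : ℝ)⁻¹).exp
      (herm_smul hB ((2 ^ k : ℕ) : ℝ)⁻¹).exp
    rwa [e, e] at this
  have h3 : (exp A * exp B).trace.im = 0 := by
    rw [← Complex.conj_eq_iff_im]
    change star _ = _
    rw [← trace_conjTranspose, conjTranspose_mul, hA.exp.eq, hB.exp.eq, trace_mul_comm]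
  have h4 : 0 ≤ (exp A * exp B).trace.re := by
    obtain ⟨U, a, -, -, -, ha⟩ := herm_diag hA
    obtain ⟨V, c, -, -, -, hc⟩ := herm_diag hB
    rw [ha, hc, trace_two]
    exact Finset.sum_nonneg fun i _ => Finset.sum_nonneg fun j _ =>
      mul_nonneg (Complex.normSq_nonneg _) (by positivity)
  refine (Complex.re_le_norm _).trans (h2.trans_eq ?_)
  rw [← Complex.abs_re_eq_norm.2 h3, abs_of_nonneg h4]

/-- real part of the quadratic form -/
noncomputable def qf (Y : Matrix m m ℂ) (v : m → ℂ) : ℝ := (star v ⬝ᵥ Y *ᵥ v).re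

omit [DecidableEq m] in
theorem conj_apply (U Y : Matrix m m ℂ) (i : m) :
    (Uᴴ * Y * U) i i = star (fun j => U j i) ⬝ᵥ Y *ᵥ fun j => U j i := by
  rw [Matrix.mul_assoc]
  rfl

theorem nsq_col {U : Matrix m m ℂ} (h : Uᴴ * U = 1) (i : m) : nsq (fun j => U j i) = 1 := by
  have h1 := conj_apply U 1 i
  rw [Matrix.mul_one, h, one_apply_eq, one_mulVec, dot_self] at h1
  exact_mod_cast h1.symm

theorem trace_conj_mul (U Y : Matrix m m ℂ) (a : m → ℝ) :
    (U * diagonal (fun i => (a i : ℂ)) * Uᴴ * Y).trace.re = ∑ i, a i * qf Y fun j => U j i := by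
  rw [Matrix.mul_assoc, Matrix.mul_assoc, trace_mul_comm, Matrix.mul_assoc]
  simp only [Matrix.trace, diag_apply, diagonal_mul, Complex.re_sum, conj_apply, qf,
    Complex.re_ofReal_mul]

theorem trace_conj {U : Matrix m m ℂ} (h : Uᴴ * U = 1) (a : m → ℝ) :
    (U * diagonal (fun i => (a i : ℂ)) * Uᴴ).trace.re = ∑ i, a i := by
  rw [trace_mul_comm, ← Matrix.mul_assoc, h, Matrix.one_mul, trace_diagonal, ← Complex.ofReal_sum,
    Complex.ofReal_re]

theorem trace_exp_nonneg {A : Matrix m m ℂ} (hA : A.IsHermitian) : 0 ≤ (exp A).trace.re := by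
  obtain ⟨U, a, h1, -, -, h4⟩ := herm_diag hA
  rw [h4, trace_conj h1]
  exact Finset.sum_nonneg fun i _ => (Real.exp_pos _).le

/-- `Tr (e^A Y) ≤ λ_max(Y) Tr e^A` -/
theorem trace_exp_mul_le {A Y : Matrix m m ℂ} (hA : A.IsHermitian) {c : ℝ}
    (h : ∀ v, qf Y v ≤ c * nsq v) : (exp A * Y).trace.re ≤ c * (exp A).trace.re := by
  obtain ⟨U, a, h1, -, -, h4⟩ := herm_diag hA
  rw [h4, trace_conj_mul, trace_conj h1, Finset.mul_sum]
  refine Finset.sum_le_sum fun i _ => ?_
  have := h fun j => U j i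
  rw [nsq_col h1, mul_one] at this
  rw [mul_comm c]
  exact mul_le_mul_of_nonneg_left this (Real.exp_pos _).le

theorem exp_le_quad {x : ℝ} (hx : x ≤ 1) : Real.exp x ≤ 1 + x + x ^ 2 := by
  rcases le_total (-1) x with h | h
  · linarith [(abs_le.1 (Real.abs_exp_sub_one_sub_id_le (abs_le.2 ⟨h, hx⟩))).2]
  · nlinarith [Real.exp_le_one_iff.2 (show x ≤ 0 by linarith)]

theorem eig_eq {U B : Matrix m m ℂ} {c : m → ℝ} (h1 : Uᴴ * U = 1)
    (h3 : B = U * diagonal (fun i => (c i : ℂ)) * Uᴴ) (i : m) : c i = qf B fun j => U j i := by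
  have e : Uᴴ * B * U = diagonal fun i => (c i : ℂ) := by
    rw [h3]
    simp only [← Matrix.mul_assoc, h1, Matrix.one_mul]
    rw [Matrix.mul_assoc, h1, Matrix.mul_one]
  rw [qf, ← conj_apply, e, diagonal_apply_eq, Complex.ofReal_re]

/-- the consequence that is used by the monitors -/
theorem trace_exp_add_le {A B : Matrix m m ℂ} (hA : A.IsHermitian) (hB : B.IsHermitian)
    (h : ∀ v, qf B v ≤ nsq v) :
    (exp (A + B)).trace.re ≤ (exp A).trace.re + (exp A * (B + B * B)).trace.re := by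
  refine (golden hA hB).trans ?_
  obtain ⟨U, a, -, -, -, ha⟩ := herm_diag hA
  obtain ⟨V, c, k1, k2, k3, k4⟩ := herm_diag hB
  have e : V * diagonal (fun i => ((1 + c i + c i ^ 2 : ℝ) : ℂ)) * Vᴴ = 1 + (B + B * B) := by
    have e1 : B * B = V * diagonal (fun i => (c i : ℂ) * c i) * Vᴴ := by
      rw [k3, ← diagonal_mul_diagonal]
      simp only [← Matrix.mul_assoc]
      rw [Matrix.mul_assoc _ Vᴴ V, k1, Matrix.mul_one]
    rw [e1]
    conv_rhs => rw [k3, ← k2]
    rw [← Matrix.add_mul, ← Matrix.add_mul, ← Matrix.mul_add, diagonal_add]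
    conv_rhs => enter [1, 1]; rw [← Matrix.mul_one V]
    rw [← Matrix.mul_add, ← diagonal_one, diagonal_add]
    congr 3
    funext i
    push_cast
    ring
  rw [← Complex.add_re, ← trace_add, ← mul_one_add, ← e, k4, ha, trace_two, trace_two]
  refine Finset.sum_le_sum fun i _ => Finset.sum_le_sum fun j _ =>
    mul_le_mul_of_nonneg_left (mul_le_mul_of_nonneg_left (exp_le_quad ?_) (Real.exp_pos _).le)
      (Complex.normSq_nonneg _)
  rw [eig_eq k1 k3, ← nsq_col k1 i]
  exact h _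

/-- the quadratic form is bounded by the logarithm of the trace of the exponential -/
theorem qf_le_log {A : Matrix m m ℂ} (hA : A.IsHermitian) (v : m → ℂ) :
    qf A v ≤ Real.log (exp A).trace.re * nsq v := by
  obtain ⟨U, a, h1, h2, h3, h4⟩ := herm_diag hA
  have e1 : nsq v = nsq (Uᴴ *ᵥ v) := by
    have := gram_form Uᴴ v v
    rw [conjTranspose_conjTranspose, h2, one_mulVec, dot_self, dot_self] at this
    exact_mod_cast this
  have e2 : qf A v = ∑ i, a i * ‖(Uᴴ *ᵥ v) i‖ ^ 2 := by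
    rw [qf, h3, ← mulVec_mulVec, ← mulVec_mulVec, dotProduct_mulVec,
      show star v ᵥ* U = star (Uᴴ *ᵥ v) by rw [star_mulVec, conjTranspose_conjTranspose]]
    simp only [dotProduct, mulVec_diagonal, Complex.re_sum]
    refine Finset.sum_congr rfl fun i _ => ?_
    rw [mul_left_comm, Pi.star_apply, RCLike.star_def, Complex.conj_mul', ← Complex.ofReal_pow,
      ← Complex.ofReal_mul, Complex.ofReal_re]
  rw [e1, e2, h4, trace_conj h1, nsq, Finset.mul_sum]
  refine Finset.sum_le_sum fun i _ => mul_le_mul_of_nonneg_right ?_ (sq_nonneg _)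
  exact (Real.le_log_iff_exp_le (Finset.sum_pos (fun i _ => Real.exp_pos _) ⟨i, by simp⟩)).2
    (Finset.single_le_sum (f := fun i => Real.exp (a i)) (fun i _ => (Real.exp_pos _).le)
      (Finset.mem_univ i))

end Crest.Agent.N334.AC.GT
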