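import Crest.Agent.R339.Trot716
import Crest.Agent.N337.KMS.PB

/-!
# Row 334, S0520, part F (helper78): Golden-Thompson for Hermitian matrices

`golden_thompson : Re tr exp (A + B) ≤ Re tr (exp A * exp B)` (Dyson/Tao argument + Lie-Trotter),
`exp_form_le` (`exp X ≤ 1 + X + X²` for `X ≤ 1`), `trace_exp_step`.
-/

set_option autoImplicit false

open Matrix NormedSpace Filter Topology
open scoped ComplexOrder

namespace Crest.Agent.N334.AC.GTc

variable {n : Type} [Fintype n] [DecidableEq n]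

omit [DecidableEq n] in
theorem tr_self (A : Matrix n n ℂ) : ‖(A * Aᴴ).trace‖ = ∑ p : n × n, ‖A p.1 p.2‖ ^ 2 := by
  have : (A * Aᴴ).trace = ((∑ p : n × n, ‖A p.1 p.2‖ ^ 2 : ℝ) : ℂ) := by
    simp only [Matrix.trace, diag_apply, Matrix.mul_apply, Fintype.sum_prod_type,
      conjTranspose_apply, RCLike.star_def, Complex.mul_conj', Complex.ofReal_sum,
      Complex.ofReal_pow]
  rw [this, Complex.norm_real, Real.norm_of_nonneg (Finset.sum_nonneg fun _ _ => sq_nonneg _)]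

omit [DecidableEq n] in
theorem tr_cs (A B : Matrix n n ℂ) :
    ‖(A * B).trace‖ ^ 2 ≤ ‖(A * Aᴴ).trace‖ * ‖(B * Bᴴ).trace‖ := by
  have e1 : ‖(A * B).trace‖ ≤ ∑ p : n × n, ‖A p.1 p.2‖ * ‖B p.2 p.1‖ := by
    simp only [Matrix.trace, diag_apply, Matrix.mul_apply, Fintype.sum_prod_type]
    refine (norm_sum_le _ _).trans (Finset.sum_le_sum fun i _ => (norm_sum_le _ _).trans ?_)
    simp only [norm_mul, le_refl]
  have e3 : ∑ p : n × n, ‖B p.1 p.2‖ ^ 2 = ∑ p : n × n, ‖B p.2 p.1‖ ^ 2 := by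
    simp only [Fintype.sum_prod_type]
    exact Finset.sum_comm
  rw [tr_self, tr_self, e3]
  exact (pow_le_pow_left₀ (norm_nonneg _) e1 2).trans (Finset.sum_mul_sq_le_sq_mul_sq _ _ _)

theorem tr_pow_comm (A C : Matrix n n ℂ) (m : ℕ) : ((A * C) ^ m).trace = ((C * A) ^ m).trace := by
  cases m with
  | zero => simp
  | succ m =>
    rw [pow_succ, ← Matrix.mul_assoc, mul_pow_mul, Matrix.mul_assoc, Matrix.trace_mul_comm,
      Matrix.mul_assoc, ← pow_succ]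

theorem tr_word (k : ℕ) : ∀ A B : Matrix n n ℂ,
    ‖((A * B) ^ 2 ^ k).trace‖ ^ 2 ≤ ‖((A * Aᴴ) ^ 2 ^ k).trace‖ * ‖((B * Bᴴ) ^ 2 ^ k).trace‖ := by
  induction k with
  | zero => intro A B; simpa using tr_cs A B
  | succ k ih =>
    intro A B
    have h1 := ih (A * B) (A * B)
    have h2 := ih (Aᴴ * A) (B * Bᴴ)
    have e1 : ((A * B * (A * B)ᴴ) ^ 2 ^ k).trace = ((Aᴴ * A * (B * Bᴴ)) ^ 2 ^ k).trace := by
      rw [conjTranspose_mul, ← Matrix.mul_assoc, tr_pow_comm]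
      simp only [Matrix.mul_assoc]
    have e2 : ∀ X : Matrix n n ℂ, (X * X) ^ 2 ^ k = X ^ 2 ^ (k + 1) := fun X => by
      rw [← sq, ← pow_mul, pow_succ']
    rw [e1, e2, ← sq] at h1
    rw [conjTranspose_mul, conjTranspose_conjTranspose, conjTranspose_mul,
      conjTranspose_conjTranspose, e2, e2, tr_pow_comm Aᴴ A] at h2
    exact h1.trans h2

theorem tr_pow_le (k : ℕ) : ∀ A B : Matrix n n ℂ, A.IsHermitian → B.IsHermitian →
    ‖((A * B) ^ 2 ^ k).trace‖ ≤ ‖(A ^ 2 ^ k * B ^ 2 ^ k).trace‖ := by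
  induction k with
  | zero => intro A B _ _; simp
  | succ k ih =>
    intro A B hA hB
    have h1 := tr_word k (A * B) (A * B)
    have e2 : ∀ X : Matrix n n ℂ, (X * X) ^ 2 ^ k = X ^ 2 ^ (k + 1) := fun X => by
      rw [← sq, ← pow_mul, pow_succ']
    rw [e2, ← sq] at h1
    have h2 := (abs_le_of_sq_le_sq' h1 (norm_nonneg _)).2
    have e1 : ((A * B * (A * B)ᴴ) ^ 2 ^ k).trace = ((A * A * (B * B)) ^ 2 ^ k).trace := by
      rw [conjTranspose_mul, hA.eq, hB.eq, ← Matrix.mul_assoc, tr_pow_comm]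
      simp only [Matrix.mul_assoc]
    have hAA : (A * A).IsHermitian := by rw [Matrix.IsHermitian, conjTranspose_mul, hA.eq]
    have hBB : (B * B).IsHermitian := by rw [Matrix.IsHermitian, conjTranspose_mul, hB.eq]
    have h3 := ih _ _ hAA hBB
    rw [e2, e2] at h3
    rw [e1] at h2
    exact h2.trans h3

theorem norm_tr_exp_mul {A B : Matrix n n ℂ} (hA : A.IsHermitian) (hB : B.IsHermitian) :
    ‖(exp A * exp B).trace‖ = (exp A * exp B).trace.re := by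
  have e : ∀ X : Matrix n n ℂ, exp X = exp ((1 / 2 : ℝ) • X) * exp ((1 / 2 : ℝ) • X) := fun X => by
    rw [← Matrix.exp_add_of_commute _ _ (Commute.refl _), ← add_smul]
    norm_num
  have hA' : (exp ((1 / 2 : ℝ) • A)).IsHermitian := Matrix.IsHermitian.exp (hA.smul (by simp [IsSelfAdjoint]))
  have hB' : (exp ((1 / 2 : ℝ) • B)).IsHermitian := Matrix.IsHermitian.exp (hB.smul (by simp [IsSelfAdjoint]))
  have h : (exp A * exp B).trace = ((exp ((1 / 2 : ℝ) • A) * exp ((1 / 2 : ℝ) • B)) *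
      (exp ((1 / 2 : ℝ) • A) * exp ((1 / 2 : ℝ) • B))ᴴ).trace := by
    rw [conjTranspose_mul, hA'.eq, hB'.eq, ← Matrix.mul_assoc]
    conv_rhs => rw [Matrix.trace_mul_comm]
    conv_lhs => rw [e A, e B]
    simp only [Matrix.mul_assoc]
  have h0 := (Matrix.posSemidef_self_mul_conjTranspose
    (exp ((1 / 2 : ℝ) • A) * exp ((1 / 2 : ℝ) • B))).trace_nonneg
  rw [← h] at h0
  rw [← Complex.re_eq_norm.2 h0]

/-- **Golden-Thompson** -/
theorem golden_thompson {A B : Matrix n n ℂ} (hA : A.IsHermitian) (hB : B.IsHermitian) :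
    (exp (A + B)).trace.re ≤ (exp A * exp B).trace.re := by
  rcases isEmpty_or_nonempty n with hn | hn
  · simp [Matrix.trace]
  have hT : Tendsto (fun m : ℕ => (exp ((m : ℝ)⁻¹ • A) * exp ((m : ℝ)⁻¹ • B)) ^ m) atTop
      (𝓝 (exp (A + B))) := by
    open scoped Matrix.Norms.Operator in exact R339.Trot.tendsto_trotter A B
  have h2 : Tendsto (fun k : ℕ => 2 ^ k) atTop atTop :=
    tendsto_pow_atTop_atTop_of_one_lt one_lt_two
  have hc : Continuous fun X : Matrix n n ℂ => ‖X.trace‖ := continuous_id.matrix_trace.norm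
  rw [← norm_tr_exp_mul hA hB]
  refine (Complex.re_le_norm _).trans
    (le_of_tendsto' ((hc.tendsto _).comp (hT.comp h2)) fun k => ?_)
  have e : ∀ X : Matrix n n ℂ, exp ((((2 ^ k : ℕ) : ℝ))⁻¹ • X) ^ 2 ^ k = exp X := fun X => by
    rw [← Matrix.exp_nsmul, ← Nat.cast_smul_eq_nsmul ℝ, smul_smul, mul_inv_cancel₀ (by positivity),
      one_smul]
  have := tr_pow_le k _ _
    (Matrix.IsHermitian.exp (hA.smul (k := (((2 ^ k : ℕ) : ℝ))⁻¹) (by simp [IsSelfAdjoint])))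
    (Matrix.IsHermitian.exp (hB.smul (k := (((2 ^ k : ℕ) : ℝ))⁻¹) (by simp [IsSelfAdjoint])))
  rw [e, e] at this
  exact this

/-- the form of a conjugated diagonal matrix -/
theorem form_diag (U : Matrix n n ℂ) (c : n → ℝ) (u : n → ℂ) :
    (star u ⬝ᵥ (U * diagonal (fun i => (c i : ℂ)) * Uᴴ) *ᵥ u).re = ∑ i, c i * ‖(Uᴴ *ᵥ u) i‖ ^ 2 := by
  rw [← mulVec_mulVec, ← mulVec_mulVec, dotProduct_mulVec, ← conjTranspose_conjTranspose U,
    ← star_mulVec, conjTranspose_conjTranspose]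
  simp only [dotProduct, mulVec_diagonal, Complex.re_sum]
  refine Finset.sum_congr rfl fun i _ => ?_
  rw [Pi.star_apply, RCLike.star_def, mul_left_comm, Complex.conj_mul', ← Complex.ofReal_pow,
    ← Complex.ofReal_mul, Complex.ofReal_re]

theorem exp_le_quad {x : ℝ} (hx : x ≤ 1) : Real.exp x ≤ 1 + x + x ^ 2 := by
  rcases le_total x (-1) with h | h
  · have : Real.exp x ≤ 1 := Real.exp_le_one_iff.2 (by linarith)
    nlinarith
  · have := Real.abs_exp_sub_one_sub_id_le (x := x) (abs_le.2 ⟨h, hx⟩)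
    linarith [(abs_le.1 this).2]

omit [DecidableEq n] in
theorem re_dot_self (u : n → ℂ) : (star u ⬝ᵥ u).re = ∑ i, ‖u i‖ ^ 2 := by
  simp only [dotProduct, Complex.re_sum, Pi.star_apply, RCLike.star_def, Complex.conj_mul',
    ← Complex.ofReal_pow, Complex.ofReal_re]

theorem col_form {U : Matrix n n ℂ} (h1 : Uᴴ * U = 1) (c : n → ℝ) (i : n) :
    (star (U *ᵥ Pi.single i 1) ⬝ᵥ (U * diagonal (fun i => (c i : ℂ)) * Uᴴ) *ᵥ
      (U *ᵥ Pi.single i 1)).re = c i := by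
  rw [form_diag, mulVec_mulVec, h1, one_mulVec, Finset.sum_eq_single i]
  · simp
  · intro j _ hj; simp [hj]
  · simp

theorem col_unit {U : Matrix n n ℂ} (h1 : Uᴴ * U = 1) (h2 : U * Uᴴ = 1) (i : n) :
    ∑ j, ‖(U *ᵥ Pi.single i 1) j‖ ^ 2 = (1 : ℝ) := by
  have := col_form h1 (fun _ => 1) i
  rwa [Complex.ofReal_one, diagonal_one, Matrix.mul_one, h2, one_mulVec, re_dot_self] at this

/-- `exp X ≤ 1 + X + X²` as forms when `X ≤ 1` -/
theorem exp_form_le {X : Matrix n n ℂ} (hX : X.IsHermitian)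
    (h1 : ∀ f : n → ℂ, (star f ⬝ᵥ X *ᵥ f).re ≤ ∑ i, ‖f i‖ ^ 2) (u : n → ℂ) :
    (star u ⬝ᵥ exp X *ᵥ u).re ≤
      ∑ i, ‖u i‖ ^ 2 + (star u ⬝ᵥ X *ᵥ u).re + ∑ i, ‖(X *ᵥ u) i‖ ^ 2 := by
  obtain ⟨V, c, k1, k2, k3, k4⟩ := N337.KMS.herm_diag hX
  have hc : ∀ j, c j ≤ 1 := fun j => by
    have := h1 (V *ᵥ Pi.single j 1)
    rwa [col_unit k1 k2, k3, col_form k1] at this
  have e0 : ∑ i, ‖u i‖ ^ 2 = ∑ i, 1 * ‖(Vᴴ *ᵥ u) i‖ ^ 2 := by
    rw [← form_diag, Complex.ofReal_one, diagonal_one, Matrix.mul_one, k2, one_mulVec, re_dot_self]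
  have e2 : ∑ i, ‖(X *ᵥ u) i‖ ^ 2 = ∑ i, (c i * c i) * ‖(Vᴴ *ᵥ u) i‖ ^ 2 := by
    rw [← form_diag]
    have : V * diagonal (fun i => ((c i * c i : ℝ) : ℂ)) * Vᴴ = X * X := by
      rw [k3]
      calc V * diagonal (fun i => ((c i * c i : ℝ) : ℂ)) * Vᴴ
          = V * (diagonal (fun i => (c i : ℂ)) * diagonal fun i => (c i : ℂ)) * Vᴴ := by
            rw [diagonal_mul_diagonal]; simp
        _ = V * diagonal (fun i => (c i : ℂ)) * (Vᴴ * V) * diagonal (fun i => (c i : ℂ)) * Vᴴ := by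
            rw [k1]; simp only [Matrix.mul_assoc, Matrix.mul_one]
        _ = _ := by simp only [Matrix.mul_assoc]
    rw [this, ← mulVec_mulVec, dotProduct_mulVec _ X, ← re_dot_self, star_mulVec, hX.eq]
  rw [e2, e0, k4, form_diag]
  conv_rhs => rw [k3, form_diag]
  rw [← Finset.sum_add_distrib, ← Finset.sum_add_distrib]
  refine Finset.sum_le_sum fun i _ => ?_
  have := mul_le_mul_of_nonneg_right (exp_le_quad (hc i)) (sq_nonneg ‖(Vᴴ *ᵥ u) i‖)
  nlinarith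

/-- trace against a conjugated diagonal matrix -/
theorem trace_diag_mul (U M : Matrix n n ℂ) (c : n → ℝ) :
    (U * diagonal (fun i => (c i : ℂ)) * Uᴴ * M).trace.re =
      ∑ i, c i * (star (U *ᵥ Pi.single i 1) ⬝ᵥ M *ᵥ (U *ᵥ Pi.single i 1)).re := by
  rw [Matrix.mul_assoc, Matrix.mul_assoc, Matrix.trace_mul_comm, Matrix.mul_assoc]
  simp only [Matrix.trace, diag_apply, diagonal_mul, Complex.re_sum]
  refine Finset.sum_congr rfl fun i _ => ?_
  rw [Complex.re_ofReal_mul]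
  congr 2
  rw [mulVec_mulVec, mulVec_single_one, mulVec_single_one, Matrix.mul_assoc, Matrix.mul_apply]
  rfl

/-- **One step of the trace potential.** -/
theorem trace_exp_step {Y : Matrix n n ℂ} (hY : Y.IsHermitian) :
    ∃ (c : n → ℝ) (u : n → n → ℂ), (∀ i, 0 < c i) ∧ (exp Y).trace.re = ∑ i, c i ∧
      (∀ i, ∑ j, ‖u i j‖ ^ 2 = 1) ∧
      (∀ t : ℝ, (∀ i, c i ≤ Real.exp t) →
        ∀ f : n → ℂ, (star f ⬝ᵥ Y *ᵥ f).re ≤ t * ∑ j, ‖f j‖ ^ 2) ∧
      ∀ X : Matrix n n ℂ, X.IsHermitian →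
        (∀ f : n → ℂ, (star f ⬝ᵥ X *ᵥ f).re ≤ ∑ i, ‖f i‖ ^ 2) →
        (exp (Y + X)).trace.re ≤
          ∑ i, c i * (1 + ((star (u i) ⬝ᵥ X *ᵥ u i).re + ∑ j, ‖(X *ᵥ u i) j‖ ^ 2)) := by
  obtain ⟨U, a, h1, h2, h3, h4⟩ := N337.KMS.herm_diag hY
  refine ⟨fun i => Real.exp (a i), fun i => U *ᵥ Pi.single i 1, fun i => Real.exp_pos _, ?_,
    col_unit h1 h2, fun t ht f => ?_, fun X hX j1 => ?_⟩
  · rw [h4, Matrix.trace_mul_comm, ← Matrix.mul_assoc, h1, Matrix.one_mul, trace_diagonal,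
      ← Complex.ofReal_sum, Complex.ofReal_re]
  · have e0 : ∑ i, ‖f i‖ ^ 2 = ∑ i, 1 * ‖(Uᴴ *ᵥ f) i‖ ^ 2 := by
      rw [← form_diag, Complex.ofReal_one, diagonal_one, Matrix.mul_one, h2, one_mulVec,
        re_dot_self]
    rw [h3, form_diag, e0, Finset.mul_sum]
    exact Finset.sum_le_sum fun i _ => by
      rw [one_mul]
      exact mul_le_mul_of_nonneg_right (Real.exp_le_exp.1 (ht i)) (sq_nonneg _)
  · refine (golden_thompson hY hX).trans ?_
    rw [h4, trace_diag_mul]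
    refine Finset.sum_le_sum fun i _ => mul_le_mul_of_nonneg_left ?_ (Real.exp_pos _).le
    refine (exp_form_le hX j1 _).trans ?_
    rw [col_unit h1 h2, add_assoc]

end Crest.Agent.N334.AC.GTc
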