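import Crest.Agent.N334.AC.F.Cls
import Crest.Agent.N334.AC.F.GT
import Crest.Agent.R034.McDiarmid

/-! # S0520 part F: monitors (leaf). `potM_locA` needs Golden-Thompson
`Re Tr exp (A + B) ≤ Re Tr (exp A * exp B)` for Hermitian matrices (put it in `F/GT.lean`):
`κ y := Re Tr (e^{A} (avg e^{Z dil J} - 1)) / Re Tr e^{A}`, `e^{X} ≤ 1 + X + X²` for `‖X‖ ≤ 1`,
`(dil J)² = diag (J Jᴴ, Jᴴ J)`, `Tr (e^A Y) ≤ λ_max(Y) Tr e^A`. -/

set_option autoImplicit false
set_option linter.unusedSectionVars false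
set_option linter.unusedVariables false

open Finset
open scoped Matrix.Norms.L2Operator Matrix

namespace Crest.Agent.N334.AC

variable {Λ : Type} [Fintype Λ] [DecidableEq Λ]

/-- child value of an accumulator -/
def accUp {V : Type} [AddCommGroup V] (U : Finset Λ) (x a : V) (J : Λ → ℕ → V) :
    Option (Λ × ℕ) → V
  | none => x + a
  | some (y, k) => x + a + if y ∈ U then J y k else 0

namespace Mon

open _root_.Crest.Agent.N334.AC.GT Matrix

theorem tfac_pos (Z T t : ℝ) : 0 < tfac Z T t := Real.exp_pos _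

theorem tfac_add (Z T t dt : ℝ) :
    tfac Z T (t + dt) = tfac Z T t * Real.exp (-(2 * Z * (dt / (4 * T)))) := by
  rw [tfac, tfac, ← Real.exp_add]
  congr 1
  ring

theorem exp_le_tfac {Z T t : ℝ} (hZ : 0 ≤ Z) (hT : 0 < T) (ht : t ≤ T) :
    Real.exp (-Z) ≤ tfac Z T t :=
  Real.exp_le_exp.2 (le_add_of_nonneg_right (by have := sub_nonneg.2 ht; positivity))

theorem tfac_zero {Z T : ℝ} (hT : 0 < T) : tfac Z T 0 = Real.exp (-Z / 2) := by
  rw [tfac]
  congr 1
  field_simp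
  ring

theorem map_avgV {V W : Type} [AddCommGroup V] [Module ℝ V] [AddCommGroup W] [Module ℝ W]
    (L : V →ₗ[ℝ] W) (N : ℕ) (f : ℕ → V) : L (avgV N f) = avgV N fun k => L (f k) := by
  simp [avgV]

theorem avgV_real (N : ℕ) (f : ℕ → ℝ) : avgV N f = avg N f := by
  simp [avgV, avg, div_eq_inv_mul]

variable {n : Type} [Fintype n] [DecidableEq n]

/-- `Y ↦ Re Tr (M Y)` -/
noncomputable def trL (M : Matrix n n ℂ) : Matrix n n ℂ →ₗ[ℝ] ℝ where
  toFun Y := (M * Y).trace.re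
  map_add' _ _ := by simp [Matrix.mul_add]
  map_smul' _ _ := by simp

/-- the quadratic form as a linear map of the matrix -/
noncomputable def qfL (w : n → ℂ) : Matrix n n ℂ →ₗ[ℝ] ℝ where
  toFun Y := qf Y w
  map_add' _ _ := by simp [qf, add_mulVec]
  map_smul' _ _ := by simp [qf, smul_mulVec]

/-- the dilation as a linear map -/
def dilL (n : Type) : Matrix n n ℂ →ₗ[ℝ] Matrix (n ⊕ n) (n ⊕ n) ℂ where
  toFun := dil
  map_add' _ _ := by simp [dil, fromBlocks_add]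
  map_smul' _ _ := by simp [dil, fromBlocks_smul]

omit [Fintype n] [DecidableEq n] in
theorem dil_add (X Y : Matrix n n ℂ) : dil (X + Y) = dil X + dil Y := (dilL n).map_add X Y

omit [Fintype n] [DecidableEq n] in
theorem dil_smul (Z : ℝ) (X : Matrix n n ℂ) : (Z : ℂ) • dil X = dil ((Z : ℂ) • X) := by
  simp [dil, fromBlocks_smul]

omit [Fintype n] [DecidableEq n] in
theorem dil_herm (X : Matrix n n ℂ) : (dil X).IsHermitian := by
  simp [dil, IsHermitian, fromBlocks_conjTranspose]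

omit [DecidableEq n] in
theorem nsq_sum (w : n ⊕ n → ℂ) : nsq w = nsq (w ∘ Sum.inl) + nsq (w ∘ Sum.inr) := by
  simp [nsq, Fintype.sum_sum_type]

omit [DecidableEq n] in
theorem nsq_dil (X : Matrix n n ℂ) (w : n ⊕ n → ℂ) :
    nsq (dil X *ᵥ w) = nsq (X *ᵥ (w ∘ Sum.inr)) + nsq (Xᴴ *ᵥ (w ∘ Sum.inl)) := by
  rw [nsq_sum, dil, fromBlocks_mulVec]
  simp

theorem qf_dil_le (X : Matrix n n ℂ) (w : n ⊕ n → ℂ) : qf (dil X) w ≤ ‖X‖ * nsq w := by
  have h : Bd X ‖X‖ := (bd_iff_norm (norm_nonneg _)).2 le_rfl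
  have h1 : Bd (dil X) ‖X‖ := fun w => by
    rw [nsq_dil, nsq_sum w]
    linarith [h (w ∘ Sum.inr), h.conjTranspose (w ∘ Sum.inl)]
  have h2 := h1.dot (star w) w
  rw [nsq_star, ← sq, ← mul_pow] at h2
  exact (Complex.re_le_norm _).trans ((sq_le_sq₀ (norm_nonneg _)
    (mul_nonneg (norm_nonneg _) (nsq_nonneg _))).1 h2)

omit [DecidableEq n] in
theorem qf_dil_sq (X : Matrix n n ℂ) (w : n ⊕ n → ℂ) : qf (dil X * dil X) w =
    nsq (X *ᵥ (w ∘ Sum.inr)) + nsq (Xᴴ *ᵥ (w ∘ Sum.inl)) := by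
  have h := gram_form (dil X) w w
  rw [(dil_herm X).eq, dot_self] at h
  rw [qf, h, Complex.ofReal_re, nsq_dil]

theorem card_le_trace (X : Matrix n n ℂ) :
    2 * (Fintype.card n : ℝ) ≤ (NormedSpace.exp (dil X)).trace.re := by
  obtain ⟨U, a, h1, -, h3, h4⟩ := N337.KMS.herm_diag (dil_herm X)
  have h5 : ∑ i, a i = 0 := by
    rw [← trace_conj h1, ← h3]
    simp [dil, Matrix.trace, Fintype.sum_sum_type]
  rw [h4, trace_conj h1]
  refine le_of_eq_of_le ?_ (Finset.sum_le_sum fun i _ => Real.add_one_le_exp (a i))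
  rw [Finset.sum_add_distrib, h5]
  simp [two_mul]

theorem exp_norm_le [Nonempty n] (Y : Matrix n n ℂ) :
    Real.exp ‖Y‖ ≤ (NormedSpace.exp (dil Y)).trace.re := by
  have h0 : (1 : ℝ) ≤ Fintype.card n := by exact_mod_cast Fintype.card_pos
  have h1 : 1 < (NormedSpace.exp (dil Y)).trace.re := by linarith [card_le_trace Y]
  have hL := Real.log_pos h1
  rw [← Real.le_log_iff_exp_le (by linarith)]
  refine (bd_iff_norm hL.le).1 fun x => ?_
  have h2 := qf_le_log (dil_herm Y)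
  set L := Real.log (NormedSpace.exp (dil Y)).trace.re
  have h3 := h2 (Sum.elim (Y *ᵥ x) ((L : ℂ) • x))
  have e : qf (dil Y) (Sum.elim (Y *ᵥ x) ((L : ℂ) • x)) = 2 * L * nsq (Y *ᵥ x) := by
    have e1 : star (Sum.elim (Y *ᵥ x) ((L : ℂ) • x)) =
        Sum.elim (star (Y *ᵥ x)) ((L : ℂ) • star x) := by
      funext i
      cases i <;> simp
    rw [qf, dil, fromBlocks_mulVec, e1, sumElim_dotProduct_sumElim]
    simp only [zero_mulVec, zero_add, add_zero]
    simp only [Sum.elim_comp_inl, Sum.elim_comp_inr, mulVec_smul,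
      dotProduct_smul, smul_dotProduct, mulVec_mulVec, gram_form, dot_self, smul_eq_mul,
      Complex.add_re, Complex.re_ofReal_mul, Complex.ofReal_re]
    ring
  rw [e, nsq_sum, Sum.elim_comp_inl, Sum.elim_comp_inr, nsq_smul, Complex.norm_real,
    Real.norm_of_nonneg hL.le] at h3
  exact le_of_mul_le_mul_left (by linarith) hL

/-- scalars as `1 × 1` matrices -/
def sc : ℂ →ₗ[ℝ] Matrix Unit Unit ℂ where
  toFun z := diagonal fun _ => z
  map_add' _ _ := by ext; simp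
  map_smul' _ _ := by ext; simp

theorem norm_sc (z : ℂ) : ‖sc z‖ = ‖z‖ := (l2_opNorm_diagonal _).trans (pi_norm_const z)

theorem nsq_sc (z : ℂ) (v : Unit → ℂ) : nsq (sc z *ᵥ v) = ‖z‖ ^ 2 * nsq v := by
  simp [sc, nsq, mulVec_diagonal, mul_pow]

theorem nsq_sc' (z : ℂ) (v : Unit → ℂ) : nsq ((sc z)ᴴ *ᵥ v) = ‖z‖ ^ 2 * nsq v := by
  simp [sc, nsq, mulVec_diagonal, mul_pow]

theorem trace_exp_sc (z : ℂ) :
    (NormedSpace.exp (dil (sc z))).trace.re = 2 * Real.cosh ‖z‖ := by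
  obtain ⟨U, a, h1, -, h3, h4⟩ := N337.KMS.herm_diag (dil_herm (sc z))
  have h5 : ∑ i, a i = 0 := by
    rw [← trace_conj h1, ← h3]
    simp [dil, Matrix.trace, Fintype.sum_sum_type]
  have h6 : ∑ i, a i * a i = 2 * ‖z‖ ^ 2 := by
    have := trace_conj_mul U (dil (sc z)) a
    simp only [← eig_eq h1 h3] at this
    rw [← this, ← h3]
    simp [dil, sc, Matrix.trace, Fintype.sum_sum_type, fromBlocks_multiply, Complex.sq_norm,
      Complex.normSq_apply]
    ring
  rw [h4, trace_conj h1]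
  simp only [Fintype.sum_sum_type, Finset.univ_unique, Finset.sum_singleton] at h5 h6 ⊢
  have h7 : a (Sum.inr default) = -a (Sum.inl default) := by linarith
  rw [h7] at h6 ⊢
  have h8 : Real.cosh (a (Sum.inl default)) = Real.cosh ‖z‖ := by
    rcases sq_eq_sq_iff_eq_or_eq_neg.1 (show a (Sum.inl default) ^ 2 = ‖z‖ ^ 2 by linarith)
      with h | h <;> simp [h]
  rw [← h8, Real.cosh_eq]
  ring

theorem potM_sc {Z : ℝ} (hZ : 0 ≤ Z) (T t R : ℝ) (z : ℂ) : potM Z T t R (sc z) = potC Z T t R z := by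
  have e : (Z : ℂ) • sc z = sc (Z * z) := by ext; simp [sc]
  rw [potM, potC, dil_smul, e, trace_exp_sc, norm_mul, Complex.norm_real, Real.norm_of_nonneg hZ]

end Mon

theorem potS_nonneg (Z T t x : ℝ) : 0 ≤ potS Z T t x :=
  (mul_pos (Real.exp_pos _) (Mon.tfac_pos _ _ _)).le
theorem potC_nonneg (Z T t R : ℝ) (z : ℂ) : 0 ≤ potC Z T t R z :=
  (mul_pos (mul_pos (mul_pos two_pos (Real.cosh_pos _)) (Real.exp_pos _)) (Mon.tfac_pos _ _ _)).le
theorem potM_nonneg {n : Type} [Fintype n] [DecidableEq n] (Z T t R : ℝ) (X : Matrix n n ℂ) :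
    0 ≤ potM Z T t R X := by
  rw [potM, Mon.dil_smul]
  exact mul_nonneg (mul_nonneg (GT.trace_exp_nonneg (Mon.dil_herm _)) (Real.exp_pos _).le)
    (Mon.tfac_pos _ _ _).le

open Mon _root_.Crest.Agent.N334.AC.GT

theorem potS_locA {A U : Finset Λ} {N : ℕ} (hN : 0 < N) {dt Z T t x a : ℝ} {J : Λ → ℕ → ℝ}
    (hdt : 0 ≤ dt) (hZ : 0 < Z) (hT : 0 < T)
    (hJ : ∀ y ∈ A ∩ U, ∀ k < N, Z * |J y k| ≤ 1)
    (hD : a + dt * ∑ y ∈ A ∩ U, avg N (J y) ≤ dt / (4 * T))
    (hQ : Z * ∑ y ∈ A ∩ U, avg N (fun k => J y k ^ 2) ≤ 1 / (4 * T)) :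
    LocA A N dt U (potS Z T t x) fun ω => potS Z T (t + dt) (accUp U x a J ω) := by
  refine ⟨potS Z T (t + dt) (x + a), fun y => avg N fun k => Z * J y k + Z * (Z * J y k ^ 2),
    potS_nonneg _ _ _ _, le_rfl, fun _ _ _ _ => potS_nonneg _ _ _ _,
    fun y _ hy k _ => by simp [accUp, hy], fun y hy => ?_, ?_⟩
  · rw [← avg_const hN 1, ← avg_add, ← avg_mul]
    refine avg_mono fun k hk => ?_
    have h1 : Z * J y k ≤ 1 :=
      (mul_le_mul_of_nonneg_left (le_abs_self _) hZ.le).trans (hJ y hy k hk)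
    have h2 := mul_le_mul_of_nonneg_left (exp_le_quad h1) (potS_nonneg Z T (t + dt) (x + a))
    simp only [accUp, if_pos (mem_inter.1 hy).2]
    refine le_of_eq_of_le ?_ (h2.trans_eq (by ring))
    rw [potS, potS, mul_add Z (x + a), Real.exp_add]
    ring
  · simp only [avg_add, avg_mul, sum_add_distrib, ← mul_sum]
    rw [potS, potS, tfac_add, mul_comm (tfac Z T t), ← mul_assoc, mul_right_comm, ← Real.exp_add,
      ← Real.exp_add]
    refine mul_le_mul_of_nonneg_right (Real.exp_le_exp.2 ?_) (tfac_pos _ _ _).le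
    have h1 := mul_le_mul_of_nonneg_left hD hZ.le
    have h2 := mul_le_mul_of_nonneg_left hQ (mul_nonneg hdt hZ.le)
    have e : dt * Z * (1 / (4 * T)) = Z * (dt / (4 * T)) := by ring
    linarith

theorem potM_locA {n : Type} [Fintype n] [DecidableEq n] {A U : Finset Λ} {N : ℕ} (hN : 0 < N)
    {dt Z T t R R' : ℝ} {X : Matrix n n ℂ} {J : Λ → ℕ → Matrix n n ℂ}
    (hdt : 0 ≤ dt) (hZ : 0 < Z) (hT : 0 < T)
    (hJ : ∀ y ∈ A ∩ U, ∀ k < N, Z * ‖J y k‖ ≤ 1)
    (hD : dt * ‖∑ y ∈ A ∩ U, avgV N (J y)‖ ≤ R' - R + dt / (4 * T))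
    (hQ : ∀ v : n → ℂ, Z * ∑ y ∈ A ∩ U, avg N (fun k => nsq (J y k *ᵥ v)) ≤ 1 / (4 * T) * nsq v)
    (hQ' : ∀ v : n → ℂ, Z * ∑ y ∈ A ∩ U, avg N (fun k => nsq ((J y k)ᴴ *ᵥ v)) ≤ 1 / (4 * T) * nsq v) :
    LocA A N dt U (potM Z T t R X) fun ω => potM Z T (t + dt) R' (accUp U X 0 J ω) := by
  rcases isEmpty_or_nonempty n with hn | hn
  · have e : ∀ t R (X : Matrix n n ℂ), potM Z T t R X = 0 := fun t R X => by simp [potM]
    exact ⟨0, 0, by simp [e], by simp [e], by simp [e], by simp [e], by simp [e, avg], by simp [e]⟩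
  set E := NormedSpace.exp (dil ((Z : ℂ) • X)) with hE
  have hτ : 0 < E.trace.re := (N337.KMS.trace_exp_pos (dil_herm _)).1
  set B : Λ → ℕ → Matrix (n ⊕ n) (n ⊕ n) ℂ := fun y k => dil ((Z : ℂ) • J y k) with hB
  have hnZ : ∀ Y : Matrix n n ℂ, ‖(Z : ℂ) • Y‖ = Z * ‖Y‖ := fun Y => by
    rw [norm_smul, Complex.norm_real, Real.norm_of_nonneg hZ.le]
  refine ⟨potM Z T (t + dt) R' X, fun y => (avg N fun k => trL E (B y k + B y k * B y k)) /
    E.trace.re, potM_nonneg _ _ _ _ _, by simp [accUp], fun _ _ _ _ => potM_nonneg _ _ _ _ _,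
    fun y _ hy k _ => by simp [accUp, hy], fun y hy => ?_, ?_⟩
  · have e : potM Z T (t + dt) R' X * (1 + (avg N fun k => trL E (B y k + B y k * B y k)) /
        E.trace.re) = Real.exp (-Z * R') * tfac Z T (t + dt) *
          (E.trace.re + avg N fun k => trL E (B y k + B y k * B y k)) := by
      rw [potM, dil_smul, ← hE]
      field_simp
    rw [e, ← avg_const hN E.trace.re, ← avg_add, ← avg_mul]
    refine avg_mono fun k hk => ?_
    have h1 := trace_exp_add_le (dil_herm ((Z : ℂ) • X)) (dil_herm ((Z : ℂ) • J y k)) fun v =>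
      (qf_dil_le _ v).trans (mul_le_of_le_one_left (nsq_nonneg _) (hnZ _ ▸ hJ y hy k hk))
    simp only [accUp, if_pos (mem_inter.1 hy).2, add_zero]
    rw [potM, dil_smul, smul_add, dil_add, mul_assoc, mul_comm]
    exact mul_le_mul_of_nonneg_left h1 (mul_pos (Real.exp_pos _) (tfac_pos _ _ _)).le
  · have h1 : trL E (∑ y ∈ A ∩ U, avgV N fun k => B y k + B y k * B y k) ≤
        (Z * ‖∑ y ∈ A ∩ U, avgV N (J y)‖ + Z * (1 / (4 * T))) * E.trace.re :=
      trace_exp_mul_le (dil_herm _) fun w => by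
        have e1 : qf (∑ y ∈ A ∩ U, avgV N fun k => B y k + B y k * B y k) w =
            ∑ y ∈ A ∩ U, avg N fun k => Z * qfL w (dilL n (J y k)) + Z * (Z *
              nsq (J y k *ᵥ (w ∘ Sum.inr)) + Z * nsq ((J y k)ᴴ *ᵥ (w ∘ Sum.inl))) := by
          refine (map_sum (qfL w) _ _).trans (sum_congr rfl fun y _ => ?_)
          rw [map_avgV, avgV_real]
          congr 1
          funext k
          rw [map_add, ← smul_eq_mul Z (qfL w _), ← map_smul, ← map_smul]
          congr 1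
          refine (qf_dil_sq _ w).trans ?_
          simp only [Matrix.conjTranspose_smul, Matrix.smul_mulVec, nsq_smul, norm_star,
            Complex.norm_real, Real.norm_of_nonneg hZ.le]
          ring
        have e2 : ∑ y ∈ A ∩ U, avg N (fun k => qfL w (dilL n (J y k))) =
            qf (dil (∑ y ∈ A ∩ U, avgV N (J y))) w := by
          change _ = qfL w (dilL n _)
          simp only [map_sum, map_avgV, avgV_real]
        rw [e1]
        simp only [avg_add, avg_mul, sum_add_distrib, ← mul_sum, e2]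
        have g1 := mul_le_mul_of_nonneg_left (qf_dil_le (∑ y ∈ A ∩ U, avgV N (J y)) w) hZ.le
        have g2 := mul_le_mul_of_nonneg_left (add_le_add (hQ (w ∘ Sum.inr)) (hQ' (w ∘ Sum.inl)))
          hZ.le
        rw [← mul_add (1 / (4 * T)), add_comm (nsq _), ← nsq_sum] at g2
        linarith
    simp only [map_sum, map_avgV, avgV_real] at h1
    have e0 : ∀ a b c d : ℝ, a + b + c ≤ d → E.trace.re * Real.exp a * (tfac Z T t * Real.exp b) *
        Real.exp c ≤ E.trace.re * Real.exp d * tfac Z T t := fun a b c d h => by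
      have := mul_le_mul_of_nonneg_left (Real.exp_le_exp.2 h) (mul_pos hτ (tfac_pos Z T t)).le
      rw [Real.exp_add, Real.exp_add] at this
      linarith
    rw [← sum_div, potM, potM, tfac_add, dil_smul]
    refine e0 _ _ _ _ ?_
    have h2 := mul_le_mul_of_nonneg_left ((div_le_iff₀ hτ).2 h1) hdt
    have h3 := mul_le_mul_of_nonneg_left hD hZ.le
    have e : dt * (Z * ‖∑ y ∈ A ∩ U, avgV N (J y)‖ + Z * (1 / (4 * T))) =
        Z * (dt * ‖∑ y ∈ A ∩ U, avgV N (J y)‖) + Z * (dt / (4 * T)) := by ring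
    linarith

theorem potC_locA {A U : Finset Λ} {N : ℕ} (hN : 0 < N) {dt Z T t R R' : ℝ} {z : ℂ}
    {J : Λ → ℕ → ℂ} (hdt : 0 ≤ dt) (hZ : 0 < Z) (hT : 0 < T)
    (hJ : ∀ y ∈ A ∩ U, ∀ k < N, Z * ‖J y k‖ ≤ 1)
    (hD : dt * ‖∑ y ∈ A ∩ U, avgV N (J y)‖ ≤ R' - R + dt / (4 * T))
    (hQ : Z * ∑ y ∈ A ∩ U, avg N (fun k => ‖J y k‖ ^ 2) ≤ 1 / (4 * T)) :
    LocA A N dt U (potC Z T t R z) fun ω => potC Z T (t + dt) R' (accUp U z 0 J ω) := by
  have hq : ∀ v : Unit → ℂ, Z * ∑ y ∈ A ∩ U, avg N (fun k => ‖J y k‖ ^ 2 * nsq v) ≤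
      1 / (4 * T) * nsq v := fun v => by
    simp only [mul_comm _ (nsq v), avg_mul, ← mul_sum]
    rw [mul_left_comm]
    exact mul_le_mul_of_nonneg_left hQ (nsq_nonneg v)
  have h := potM_locA (A := A) (U := U) hN (t := t) (R := R) (R' := R') (X := sc z)
    (J := fun y k => sc (J y k)) hdt hZ hT (by simpa only [norm_sc] using hJ)
    (by simpa only [← map_avgV, ← map_sum, norm_sc] using hD)
    (by simpa only [nsq_sc] using hq) (by simpa only [nsq_sc'] using hq)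
  have e : ∀ ω, accUp U (sc z) 0 (fun y k => sc (J y k)) ω = sc (accUp U z 0 J ω) := by
    rintro (_ | ⟨y, k⟩)
    · simp [accUp]
    · by_cases hy : y ∈ U <;> simp [accUp, hy]
  simpa only [e, potM_sc hZ.le] using h

/-- leftover monitor: `p` is still active -/
theorem potL_locA {A U : Finset Λ} {N : ℕ} (hN : 0 < N) {dt T t : ℝ} (hdt : 0 ≤ dt) {p : Λ}
    (hp : p ∈ A ∩ U) :
    LocA A N dt U (Real.exp (-(T - t))) fun ω =>
      if ω.map Prod.fst = some p then 0 else Real.exp (-(T - (t + dt))) := by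
  have h0 := (Real.exp_pos (-(T - (t + dt)))).le
  refine ⟨Real.exp (-(T - (t + dt))), fun y => if y = p then -1 else 0, by simpa using h0, by simp,
    fun y _ k _ => by beta_reduce; split_ifs; exacts [le_rfl, h0],
    fun y _ _ k _ => by beta_reduce; split_ifs; exacts [h0, le_rfl], fun y _ => ?_, ?_⟩
  · by_cases h : y = p <;> simp [h, avg_const hN]
  · rw [sum_ite_eq', if_pos hp, ← Real.exp_add]
    exact le_of_eq (by congr 1; ring)

theorem one_le_potS {Z T t x : ℝ} (hZ : 0 ≤ Z) (hT : 0 < T) (ht : t ≤ T) (hx : 1 ≤ x) :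
    1 ≤ potS Z T t x := by
  refine le_trans ?_ (mul_le_mul_of_nonneg_left (exp_le_tfac hZ hT ht) (Real.exp_pos _).le)
  rw [← Real.exp_add]
  exact Real.one_le_exp (by nlinarith)
theorem one_le_potC {Z T t R : ℝ} {z : ℂ} (hZ : 0 ≤ Z) (hT : 0 < T) (ht : t ≤ T)
    (hx : R + 1 ≤ ‖z‖) : 1 ≤ potC Z T t R z := by
  have h1 : Real.exp (Z * ‖z‖) ≤ 2 * Real.cosh (Z * ‖z‖) := by
    rw [Real.cosh_eq]
    linarith [Real.exp_pos (-(Z * ‖z‖))]
  refine le_trans ?_ (mul_le_mul (mul_le_mul_of_nonneg_right h1 (Real.exp_pos _).le)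
    (exp_le_tfac hZ hT ht) (Real.exp_pos _).le (by positivity))
  rw [← Real.exp_add, ← Real.exp_add]
  exact Real.one_le_exp (by nlinarith)
theorem one_le_potM {n : Type} [Fintype n] [DecidableEq n] {Z T t R : ℝ} {X : Matrix n n ℂ}
    (hZ : 0 ≤ Z) (hT : 0 < T) (ht : t ≤ T) (hR : 0 ≤ R) (hx : R + 1 ≤ ‖X‖) :
    1 ≤ potM Z T t R X := by
  rcases isEmpty_or_nonempty n with hn | hn
  · rw [Subsingleton.elim X 0, norm_zero] at hx
    linarith
  have h1 := exp_norm_le ((Z : ℂ) • X)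
  rw [norm_smul, Complex.norm_real, Real.norm_of_nonneg hZ] at h1
  rw [potM, dil_smul]
  refine le_trans ?_ (mul_le_mul (mul_le_mul_of_nonneg_right h1 (Real.exp_pos _).le)
    (exp_le_tfac hZ hT ht) (Real.exp_pos _).le
    (mul_nonneg (trace_exp_nonneg (dil_herm _)) (Real.exp_pos _).le))
  rw [← Real.exp_add, ← Real.exp_add]
  exact Real.one_le_exp (by nlinarith)
theorem potS_zero {Z T : ℝ} (hT : 0 < T) : potS Z T 0 0 = Real.exp (-Z / 2) := by
  simp [potS, tfac_zero hT]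
theorem potC_zero {Z T : ℝ} (hT : 0 < T) : potC Z T 0 0 0 = 2 * Real.exp (-Z / 2) := by
  simp [potC, tfac_zero hT]
theorem potM_zero {n : Type} [Fintype n] [DecidableEq n] {Z T : ℝ} (hT : 0 < T) :
    potM Z T 0 0 (0 : Matrix n n ℂ) = 2 * Fintype.card n * Real.exp (-Z / 2) := by
  simp [potM, tfac_zero hT, dil, two_mul]

/-- McDiarmid (see `R031/Tail_408.mcdiarmid_up`) as a product-step monitor -/
theorem locB_tail {m : Λ → ℕ} (hm : ∀ x, 0 < m x) {U : Finset Λ} {f : (Λ → ℕ) → ℝ} {c : Λ → ℝ}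
    {s Z : ℝ} (hs : 0 < s) (hZ : 0 < Z) (hU : ∀ ξ ξ', (∀ x ∈ U, ξ x = ξ' x) → f ξ = f ξ')
    (hc : ∀ ξ x k, |f (Function.update ξ x k) - f ξ| ≤ c x)
    (hv : Z * ∑ x ∈ U, c x ^ 2 ≤ s ^ 2) :
    LocB m U (Real.exp (-Z)) fun ξ => if avgP m f + s ≤ f ξ then 1 else 0 := by
  refine ⟨_, fun ξ ξ' h => by rw [hU ξ ξ' h],
    fun ξ _ => ⟨by beta_reduce; split_ifs; exacts [zero_le_one, le_rfl], le_rfl⟩, ?_⟩
  have : ∀ x, Nonempty (Fin (m x)) := fun x => ⟨⟨0, hm x⟩⟩
  have e1 : ∀ g : (Λ → ℕ) → ℝ, avgP m g =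
      (∑ ω : ∀ x, Fin (m x), g fun x => ω x) / Fintype.card (∀ x, Fin (m x)) := fun g => by
    rw [avgP, Fintype.card_pi]
    congr 1
    · refine (sum_of_injOn (fun (ω : ∀ x, Fin (m x)) x => (ω x : ℕ))
        (fun ω _ ω' _ h => funext fun x => Fin.ext (congrFun h x)) (fun ω _ => by simp)
        (fun ξ hξ h => absurd ⟨fun x => ⟨ξ x, by simpa using Fintype.mem_piFinset.1 hξ x⟩,
          by simp, rfl⟩ h) fun _ _ => rfl).symm
    · simp
  have hN : (0 : ℝ) < Fintype.card (∀ x, Fin (m x)) := by exact_mod_cast Fintype.card_pos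
  have h1 := R034.McD.sum_exp_le (X := fun x => Fin (m x)) (fun ω => f fun x => ω x)
    (fun x => if x ∈ U then c x else 0) (2 * Z / s) fun x ω y => by
      have e : (fun z => ((Function.update ω x y z : Fin (m z)) : ℕ)) =
          Function.update (fun z => (ω z : ℕ)) x y := by
        funext z
        by_cases h : z = x
        · subst h
          simp
        · simp [h]
      simp only [e]
      split_ifs with hx
      · rw [abs_sub_comm]
        exact hc _ _ _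
      · rw [hU _ (Function.update (fun z => (ω z : ℕ)) x y) fun z hz =>
          (Function.update_of_ne (by rintro rfl; exact hx hz) _ _).symm]
        simp
  have e2 : ∑ x, (if x ∈ U then c x else 0) ^ 2 = ∑ x ∈ U, c x ^ 2 := by simp
  rw [e2, show R034.McD.mean (fun ω : ∀ x, Fin (m x) => f fun x => ω x) = avgP m f from
    (e1 f).symm] at h1
  rw [e1, div_le_iff₀ hN]
  have h2 : ∑ ω : ∀ x, Fin (m x), (if avgP m f + s ≤ f (fun x => ω x) then (1 : ℝ) else 0) ≤
      ∑ ω : ∀ x, Fin (m x), Real.exp (-(2 * Z / s * (avgP m f + s))) *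
        Real.exp (2 * Z / s * f fun x => ω x) := sum_le_sum fun ω _ => by
    rw [← Real.exp_add]
    split_ifs with h
    · exact Real.one_le_exp (by
        linarith [mul_le_mul_of_nonneg_left h (by positivity : 0 ≤ 2 * Z / s)])
    · exact (Real.exp_pos _).le
  rw [← mul_sum] at h2
  refine h2.trans ((mul_le_mul_of_nonneg_left h1 (Real.exp_pos _).le).trans ?_)
  rw [mul_comm (Fintype.card _ : ℝ), ← mul_assoc, ← mul_assoc, ← Real.exp_add, ← Real.exp_add]
  refine mul_le_mul_of_nonneg_right (Real.exp_le_exp.2 ?_) hN.le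
  have h3 := mul_le_mul_of_nonneg_left hv (by positivity : 0 ≤ Z / (2 * s ^ 2))
  have e3 : (2 * Z / s) ^ 2 * (∑ x ∈ U, c x ^ 2) / 8 =
      Z / (2 * s ^ 2) * (Z * ∑ x ∈ U, c x ^ 2) := by ring
  have e4 : Z / (2 * s ^ 2) * s ^ 2 = Z / 2 := by field_simp
  have e5 : 2 * Z / s * (avgP m f + s) = 2 * Z / s * avgP m f + 2 * Z := by field_simp
  linarith

end Crest.Agent.N334.AC
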