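import Crest.Agent.N334.AC.F.Mon

/-! # S0520 part F: complex monitor with a random budget (leaf).
`potC Z T t s z = Re Tr exp (Z (dil z - s)) · tfac`; Hermitian jump `X = dil J - D·1`, `‖X‖ ≤ ‖J‖+|D|`,
`X² ≤ 2(‖J‖²+D²)`, `λ_max (∑ E X) = ‖∑ E J‖ - ∑ E D`. (Or directly: `2cosh(Z‖z+J‖)` via the 2×2 case of
`F/GT`.) -/

set_option autoImplicit false

open Finset

namespace Crest.Agent.N334.AC

variable {Λ : Type} [Fintype Λ] [DecidableEq Λ]

namespace Mon2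

open Mon _root_.Crest.Agent.N334.AC.GT
open scoped Matrix.Norms.L2Operator Matrix

theorem exists_lin (a : ℂ) : ∃ l : ℂ →ₗ[ℝ] ℝ, (∀ j, l j ≤ ‖j‖) ∧
    ∀ j, ‖j‖ ≤ 1 → Real.cosh ‖a + j‖ ≤ Real.cosh ‖a‖ * (1 + l j + ‖j‖ ^ 2) := by
  have hc := Real.cosh_pos ‖a‖
  have h0 : ∀ j, trL (NormedSpace.exp (dil (sc a))) (dil (sc j)) ≤ ‖j‖ * (2 * Real.cosh ‖a‖) :=
    fun j => by
      rw [← trace_exp_sc, ← norm_sc j]
      exact trace_exp_mul_le (dil_herm _) (qf_dil_le _)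
  refine ⟨(2 * Real.cosh ‖a‖)⁻¹ • (trL (NormedSpace.exp (dil (sc a)))) ∘ₗ dilL Unit ∘ₗ sc,
    fun j => (inv_mul_le_iff₀ (by positivity)).2 ((h0 j).trans_eq (mul_comm _ _)), fun j hj => ?_⟩
  have h1 := trace_exp_add_le (dil_herm (sc a)) (dil_herm (sc j)) fun v =>
    (qf_dil_le _ v).trans (mul_le_of_le_one_left (nsq_nonneg _) (norm_sc j ▸ hj))
  have h2 : trL (NormedSpace.exp (dil (sc a))) (dil (sc j) * dil (sc j)) ≤
      ‖j‖ ^ 2 * (2 * Real.cosh ‖a‖) := by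
    rw [← trace_exp_sc]
    exact trace_exp_mul_le (dil_herm _) fun v => by
      rw [qf_dil_sq, nsq_sc, nsq_sc', nsq_sum v]; linarith
  rw [← dil_add, ← map_add, trace_exp_sc, trace_exp_sc] at h1
  replace h1 := h1.trans_eq (congrArg _ ((trL (NormedSpace.exp (dil (sc a)))).map_add _ _))
  change _ ≤ _ * (1 + (2 * Real.cosh ‖a‖)⁻¹ * trL (NormedSpace.exp (dil (sc a))) (dil (sc j)) + _)
  generalize trL (NormedSpace.exp (dil (sc a))) (dil (sc j)) = x at h1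
  have e : Real.cosh ‖a‖ * ((2 * Real.cosh ‖a‖)⁻¹ * x) = x / 2 := by field_simp
  linarith

theorem quad {x d l : ℝ} (hx : 0 ≤ x) (h : x + |d| ≤ 1) (hl : |l| ≤ x) :
    (1 + l + x ^ 2) * Real.exp (-d) ≤ 1 + (l - d + 2 * (x ^ 2 + d ^ 2)) := by
  have h1 := Real.exp_bound (x := -d) (by rw [abs_neg]; linarith) (n := 2) two_pos
  norm_num [sum_range_succ] at h1
  have h2 : Real.exp (-d) ≤ 1 - d + 3 / 4 * d ^ 2 := by linarith [(abs_le.1 h1).2]
  obtain ⟨l1, l2⟩ := abs_le.1 hl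
  have hy := abs_nonneg d
  refine (mul_le_mul_of_nonneg_left h2 (by nlinarith)).trans ?_
  have a1 : -(l * d) ≤ x * |d| := (neg_le_abs _).trans (by rw [abs_mul]; gcongr)
  have a2 : l * d ^ 2 ≤ x * |d| ^ 2 := by rw [sq_abs]; gcongr
  have a3 : -(x ^ 2 * d) ≤ x ^ 2 * |d| := by nlinarith [neg_le_abs d, sq_nonneg x]
  rw [← sq_abs d] at a2 ⊢
  generalize |d| = y at *
  have b0 := mul_nonneg hx hy
  have b1 : x * y ≤ 1 / 4 := by nlinarith [sq_nonneg (x - y)]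
  have b2 := mul_le_mul_of_nonneg_left h b0
  have b3 := mul_le_mul_of_nonneg_left b1 b0
  nlinarith [sq_nonneg (x - 35 / 32 * y), mul_nonneg b0 hy, sq_nonneg y]

end Mon2

theorem potD_locA {A U : Finset Λ} {N : ℕ} (hN : 0 < N) {dt Z T t s : ℝ} {z : ℂ}
    {J : Λ → ℕ → ℂ} {D : Λ → ℕ → ℝ} (hdt : 0 ≤ dt) (hZ : 0 < Z) (hT : 0 < T)
    (hJ : ∀ y ∈ A ∩ U, ∀ k < N, Z * (‖J y k‖ + |D y k|) ≤ 1)
    (hD : ‖∑ y ∈ A ∩ U, avgV N (J y)‖ - ∑ y ∈ A ∩ U, avg N (D y) ≤ 1 / (4 * T))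
    (hQ : 2 * Z * ∑ y ∈ A ∩ U, avg N (fun k => ‖J y k‖ ^ 2 + D y k ^ 2) ≤ 1 / (4 * T)) :
    LocA A N dt U (potC Z T t s z) fun ω =>
      potC Z T (t + dt) (accUp U s 0 D ω) (accUp U z 0 J ω) := by
  obtain ⟨l, l1, l2⟩ := Mon2.exists_lin (Z * z)
  have hn : ∀ w : ℂ, ‖Z * w‖ = Z * ‖w‖ := fun w => by
    rw [norm_mul, Complex.norm_real, Real.norm_of_nonneg hZ.le]
  have l3 : ∀ j, |l j| ≤ ‖j‖ := fun j =>
    abs_le.2 ⟨by have := l1 (-j); rw [map_neg, norm_neg] at this; linarith, l1 j⟩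
  refine ⟨potC Z T (t + dt) s z, fun y => avg N fun k =>
    Z * (l (J y k) + -1 * D y k) + Z * (2 * Z * (‖J y k‖ ^ 2 + D y k ^ 2)),
    potC_nonneg _ _ _ _ _, by simp [accUp], fun _ _ _ _ => potC_nonneg _ _ _ _ _,
    fun y _ hy k _ => by simp [accUp, hy], fun y hy => ?_, ?_⟩
  · nth_rw 1 [← avg_const hN 1]
    rw [← avg_add, ← avg_mul]
    refine avg_mono fun k hk => ?_
    have h0 := hJ y hy k hk
    have h1 : ‖Z * J y k‖ + |Z * D y k| ≤ 1 := by rw [hn, abs_mul, abs_of_pos hZ]; linarith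
    have h2 := (mul_le_mul_of_nonneg_right (l2 (Z * J y k) (by linarith [abs_nonneg (Z * D y k)]))
      (Real.exp_pos (-(Z * D y k))).le).trans ((mul_assoc _ _ _).trans_le
        (mul_le_mul_of_nonneg_left (Mon2.quad (norm_nonneg _) h1 (l3 _)) (Real.cosh_pos _).le))
    rw [← mul_add, hn, hn, hn, ← Complex.real_smul, map_smul, smul_eq_mul] at h2
    have h3 := mul_le_mul_of_nonneg_left h2
      (mul_pos (mul_pos two_pos (Real.exp_pos (-Z * s))) (Mon.tfac_pos Z T (t + dt))).le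
    simp only [accUp, if_pos (mem_inter.1 hy).2, add_zero, potC]
    rw [mul_add (-Z), Real.exp_add, neg_mul Z (D y k)]
    linarith
  · have e : ∑ y ∈ A ∩ U, avg N (fun k => l (J y k)) = l (∑ y ∈ A ∩ U, avgV N (J y)) := by
      simp only [map_sum, Mon.map_avgV, Mon.avgV_real]
    simp only [avg_add, avg_mul, sum_add_distrib, ← mul_sum, e] at hQ ⊢
    rw [potC, potC, Mon.tfac_add, mul_assoc, mul_assoc (tfac Z T t), ← Real.exp_add]
    refine mul_le_mul_of_nonneg_left (mul_le_of_le_one_right (Mon.tfac_pos _ _ _).le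
      (Real.exp_le_one_iff.2 ?_)) (by positivity)
    have h1 := mul_le_mul_of_nonneg_left (add_le_add (add_le_add
      (l1 (∑ y ∈ A ∩ U, avgV N (J y))) hD) hQ) (mul_nonneg hdt hZ.le)
    have e : dt / (4 * T) = dt * (1 / (4 * T)) := by ring
    rw [e]
    linarith

end Crest.Agent.N334.AC
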