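import Crest.Agent.N334.AC.F.Cls
import Crest.Agent.N334.AC.Geo

/-! # S0520 part F: the witness recursion (leaf) -/

set_option autoImplicit false

open Finset

namespace Crest.Agent.N334.AC

variable {d M : ℕ} [NeZero M]

namespace Wt

theorem crowd_eq (m far Rc : ℕ) (p : Tor d M) :
    ∃ T : Finset (Finset (Tor d M)), (∀ S, S ∈ T ↔ S ⊆ tball p Rc ∧ S.card = m ∧ Sep far S) ∧
      ∀ g : Tor d M → ℝ, crowd m far Rc g p = ∑ S ∈ T, ∏ q ∈ S, g q := by
  classical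
  refine ⟨((tball p Rc).powersetCard m).filter (Sep far), fun S => ?_, fun g => ?_⟩
  · simp only [mem_filter, mem_powersetCard, and_assoc]
  · unfold crowd
    congr

theorem one_le_prodR {ι : Type} {s : Finset ι} {f : ι → ℝ} (h : ∀ i ∈ s, 1 ≤ f i) :
    1 ≤ ∏ i ∈ s, f i := by
  simpa using prod_le_prod (s := s) (f := fun _ => (1 : ℝ)) (fun _ _ => zero_le_one) h

theorem crowd_nonneg (m far Rc : ℕ) {f : Tor d M → ℝ} (h : ∀ q, 0 ≤ f q) (p : Tor d M) :
    0 ≤ crowd m far Rc f p := by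
  obtain ⟨T, -, e⟩ := crowd_eq m far Rc p
  rw [e]
  exact sum_nonneg fun S _ => prod_nonneg fun q _ => h q

theorem crowd_mono (m far Rc : ℕ) {f g : Tor d M → ℝ} (h : ∀ q, 0 ≤ f q) (h' : ∀ q, f q ≤ g q)
    (p : Tor d M) : crowd m far Rc f p ≤ crowd m far Rc g p := by
  obtain ⟨T, -, e⟩ := crowd_eq m far Rc p
  rw [e, e]
  exact sum_le_sum fun S _ => prod_le_prod (fun q _ => h q) fun q _ => h' q

theorem prod_le_crowd {m far Rc : ℕ} {f : Tor d M → ℝ} (h : ∀ q, 0 ≤ f q) {p : Tor d M}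
    {S : Finset (Tor d M)} (h1 : S ⊆ tball p Rc) (h2 : S.card = m) (h3 : Sep far S) :
    ∏ q ∈ S, f q ≤ crowd m far Rc f p := by
  obtain ⟨T, hT, e⟩ := crowd_eq m far Rc p
  rw [e]
  exact single_le_sum (f := fun S : Finset (Tor d M) => ∏ q ∈ S, f q)
    (fun S _ => prod_nonneg fun q _ => h q) ((hT S).2 ⟨h1, h2, h3⟩)

theorem crowd_le (m far Rc : ℕ) {f : Tor d M → ℝ} {c : ℝ} (h : ∀ q, 0 ≤ f q) (h' : ∀ q, f q ≤ c)
    (p : Tor d M) : crowd m far Rc f p ≤ (vol d M Rc * c) ^ m := by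
  obtain ⟨T, hT, e⟩ := crowd_eq m far Rc p
  have hc : 0 ≤ c := (h p).trans (h' p)
  have h1 : T.card ≤ (tball p Rc).card ^ m := by
    refine le_trans (card_le_card (t := (tball p Rc).powersetCard m) fun S hS => ?_) ?_
    · exact mem_powersetCard.2 ⟨((hT S).1 hS).1, ((hT S).1 hS).2.1⟩
    · rw [card_powersetCard]
      exact Nat.choose_le_pow _ _
  have h2 : ∑ S ∈ T, ∏ q ∈ S, f q ≤ T.card • c ^ m := by
    refine sum_le_card_nsmul _ _ _ fun S hS => ?_
    rw [← ((hT S).1 hS).2.1, ← prod_const]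
    exact prod_le_prod (fun q _ => h q) fun q _ => h' q
  rw [e, mul_pow, ← card_tball p]
  refine h2.trans ?_
  rw [nsmul_eq_mul]
  exact mul_le_mul_of_nonneg_right (by exact_mod_cast h1) (pow_nonneg hc _)

theorem Fw_zero (ρ : Rad) (cut : ℕ) (base : ℕ → Tor d M → ℝ) (p : Tor d M) :
    Fw ρ cut base 0 p = base 0 p := rfl

theorem Fw_succ (ρ : Rad) (cut : ℕ) (base : ℕ → Tor d M → ℝ) (k : ℕ) (p : Tor d M) :
    Fw ρ cut base (k + 1) p = base (k + 1) p + if k + 1 ≤ cut then 0 else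
      crowd (ρ.m (k + 1)) (2 * ρ.r k + 1) (ρ.Rc (k + 1)) (Fw ρ cut base k) p := rfl

theorem Fw_of_le (ρ : Rad) {cut : ℕ} (base : ℕ → Tor d M → ℝ) {k : ℕ} (h : k ≤ cut)
    (p : Tor d M) : Fw ρ cut base k p = base k p := by
  cases k with
  | zero => rfl
  | succ k => rw [Fw_succ, if_pos h, add_zero]

theorem Fw_nonneg (ρ : Rad) (cut : ℕ) {base : ℕ → Tor d M → ℝ} (h0 : ∀ k p, 0 ≤ base k p)
    (k : ℕ) (p : Tor d M) : 0 ≤ Fw ρ cut base k p := by
  induction k generalizing p with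
  | zero => exact h0 0 p
  | succ k ih =>
    rw [Fw_succ]
    refine add_nonneg (h0 _ _) ?_
    split_ifs
    · exact le_rfl
    · exact crowd_nonneg _ _ _ ih p

theorem base_le_Fw (ρ : Rad) (cut : ℕ) {base : ℕ → Tor d M → ℝ} (h0 : ∀ k p, 0 ≤ base k p)
    (k : ℕ) (p : Tor d M) : base k p ≤ Fw ρ cut base k p := by
  cases k with
  | zero => exact le_rfl
  | succ k =>
    rw [Fw_succ]
    refine le_add_of_nonneg_right ?_
    split_ifs
    · exact le_rfl
    · exact crowd_nonneg _ _ _ (Fw_nonneg ρ cut h0 k) p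

theorem Fw_mono (ρ : Rad) (cut : ℕ) {base base' : ℕ → Tor d M → ℝ} (h0 : ∀ k p, 0 ≤ base k p)
    (h : ∀ k p, base k p ≤ base' k p) (k : ℕ) (p : Tor d M) :
    Fw ρ cut base k p ≤ Fw ρ cut base' k p := by
  induction k generalizing p with
  | zero => exact h 0 p
  | succ k ih =>
    rw [Fw_succ, Fw_succ]
    refine add_le_add (h _ _) ?_
    split_ifs
    · exact le_rfl
    · exact crowd_mono _ _ _ (Fw_nonneg ρ cut h0 k) ih p

theorem Hw_nonneg (ρ : Rad) (cut : ℕ) {base : ℕ → Tor d M → ℝ} (h0 : ∀ k p, 0 ≤ base k p)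
    (a b : ℕ) (x : Tor d M) : 0 ≤ Hw ρ cut base a b x :=
  sum_nonneg fun k _ => sum_nonneg fun p _ => Fw_nonneg ρ cut h0 k p

theorem base_le_Hw (ρ : Rad) (cut : ℕ) {base : ℕ → Tor d M → ℝ} (h0 : ∀ k p, 0 ≤ base k p)
    {a b k : ℕ} (ha : a ≤ k) (hb : k < b) {x p : Tor d M} (hp : tdist p x ≤ ρ.r (k + 1)) :
    base k p ≤ Hw ρ cut base a b x := by
  refine (base_le_Fw ρ cut h0 k p).trans (le_trans ?_ (single_le_sum
    (f := fun k => ∑ p ∈ tball x (ρ.r (k + 1)), Fw ρ cut base k p)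
    (fun k _ => sum_nonneg fun p _ => Fw_nonneg ρ cut h0 k p) (mem_Ico.2 ⟨ha, hb⟩)))
  exact single_le_sum (f := fun p => Fw ρ cut base k p) (fun p _ => Fw_nonneg ρ cut h0 k p)
    (mem_tball.2 hp)

/-- `Psi` is monotone in the witness functions -/
theorem Psi_le (ρ : Rad) (X : Finset (Tor d M)) (k1 K : ℕ) {cut cut' : ℕ}
    {base base' : ℕ → Tor d M → ℝ} (h0 : ∀ k p, 0 ≤ base k p)
    (h : ∀ k p, Fw ρ cut base k p ≤ Fw ρ cut' base' k p) :
    Psi ρ X k1 K cut base ≤ Psi ρ X k1 K cut' base' := by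
  have h1 : ∀ a b x, Hw ρ cut base a b x ≤ Hw ρ cut' base' a b x := fun a b x =>
    sum_le_sum fun k _ => sum_le_sum fun p _ => h k p
  exact add_le_add (prod_le_prod (fun x _ => Hw_nonneg ρ cut h0 _ _ x) fun x _ => h1 _ _ x)
    (sum_le_sum fun x _ => h1 _ _ x)

theorem Fw_mem {Ω : Type} (C : Cls (Tor d M) Ω) (ρ : Rad) {cut : ℕ}
    {base : ℕ → Tor d M → ℝ} {base' : Ω → ℕ → Tor d M → ℝ}
    (h0 : ∀ k p, 0 ≤ base k p) (h1 : ∀ ω k, k ≠ cut → base' ω k = base k)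
    (h2 : ∀ p, C.mem (tball p (ρ.r cut)) (base cut p) fun ω => base' ω cut p) (k : ℕ)
    (p : Tor d M) :
    C.mem (tball p (ρ.r k)) (Fw ρ cut base k p) fun ω => Fw ρ cut (base' ω) k p := by
  have hb : ∀ k p, C.mem (tball p (ρ.r k)) (base k p) fun ω => base' ω k p := by
    intro k p
    by_cases hk : k = cut
    · subst hk; exact h2 p
    · simp only [h1 _ k hk]
      exact C.const _ _ (h0 k p)
  induction k generalizing p with
  | zero => exact hb 0 p
  | succ k ih =>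
    simp only [Fw_succ]
    refine C.add (hb _ p) ?_
    by_cases hk : k + 1 ≤ cut
    · simp only [if_pos hk]
      exact C.const _ _ le_rfl
    · simp only [if_neg hk]
      obtain ⟨T, hT, e⟩ := crowd_eq (ρ.m (k + 1)) (2 * ρ.r k + 1) (ρ.Rc (k + 1)) p
      simp only [e]
      refine C.sum T fun S hS => ?_
      obtain ⟨hS1, -, hS3⟩ := (hT S).1 hS
      refine C.prod S (U := fun q => tball q (ρ.r k)) (fun q hq q' hq' hne => ?_)
        (fun q hq => ?_) fun q _ => ih q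
      · exact disjoint_tball (by have := hS3 q hq q' hq' hne; omega)
      · exact tball_subset (by have := mem_tball.1 (hS1 hq); have := ρ.le k; omega)

/-- links of the clusters -/
def Lk (R : ℕ) (P : Finset (Tor d M)) (p q : Tor d M) : Prop :=
  p ∈ P ∧ q ∈ P ∧ tdist p q ≤ 10 * R

omit [NeZero M] in
/-- connected by links -/
def Cn (R : ℕ) (P : Finset (Tor d M)) : Tor d M → Tor d M → Prop := Relation.ReflTransGen (Lk R P)

theorem Cn.symm {R : ℕ} {P : Finset (Tor d M)} {p q : Tor d M} (h : Cn R P p q) : Cn R P q p := by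
  induction h with
  | refl => exact Relation.ReflTransGen.refl
  | tail _ h ih =>
    exact Relation.ReflTransGen.head ⟨h.2.1, h.1, by rw [tdist_comm]; exact h.2.2⟩ ih

/-- discrete intermediate values along a chain -/
theorem Cn.exists_mid {R : ℕ} (hR : 0 < R) {P : Finset (Tor d M)} {p q : Tor d M} (hp : p ∈ P)
    (h : Cn R P p q) {t : ℕ} (ht : t ≤ tdist q p) :
    ∃ z ∈ P, t ≤ tdist z p ∧ tdist z p < t + 10 * R := by
  induction h with
  | refl => exact ⟨p, hp, ht, by rw [tdist_self]; omega⟩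
  | @tail b c _ h ih =>
    by_cases hb : t ≤ tdist b p
    · exact ih hb
    · refine ⟨c, h.2.1, ht, ?_⟩
      have h1 := tdist_triangle c b p
      have h2 := h.2.2
      rw [tdist_comm] at h2
      omega

theorem crowded_of_far (ρ : Rad) {k R : ℕ} {P : Finset (Tor d M)}
    (hR : 2 * ρ.r k + 1 ≤ 10 * R) (hRc : 20 * ρ.m (k + 1) * R ≤ ρ.Rc (k + 1)) {p q : Tor d M}
    (hp : p ∈ P) (h : Cn R P p q) (hq : 20 * ρ.m (k + 1) * R < tdist q p) : Crowded ρ k P p := by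
  classical
  have hR0 : 0 < R := by omega
  have h1 : ∀ i : ℕ, ∃ z, i < ρ.m (k + 1) →
      z ∈ P ∧ 20 * (i * R) ≤ tdist z p ∧ tdist z p < 20 * (i * R) + 10 * R := by
    intro i
    by_cases hi : i < ρ.m (k + 1)
    · have h2 : i * R ≤ ρ.m (k + 1) * R := Nat.mul_le_mul_right _ hi.le
      obtain ⟨z, hz⟩ := h.exists_mid hR0 hp (t := 20 * (i * R)) (by rw [mul_assoc] at hq; omega)
      exact ⟨z, fun _ => hz⟩
    · exact ⟨p, fun h => absurd h hi⟩
  choose z hz using h1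
  have h2 : ∀ i j, i < j → j < ρ.m (k + 1) → 10 * R < tdist (z j) (z i) := by
    intro i j hij hj
    have h3 := (hz i (hij.trans hj)).2.2
    have h4 := (hz j hj).2.1
    have h5 := tdist_triangle (z j) (z i) p
    have h6 : (i + 1) * R ≤ j * R := Nat.mul_le_mul_right _ hij
    rw [add_mul, one_mul] at h6
    omega
  have h3 : ∀ i < ρ.m (k + 1), ∀ j < ρ.m (k + 1), i ≠ j → 10 * R < tdist (z i) (z j) := by
    intro i hi j hj hne
    rcases lt_or_gt_of_ne hne with h | h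
    · rw [tdist_comm]; exact h2 i j h hj
    · exact h2 j i h hi
  refine ⟨(range (ρ.m (k + 1))).image z, fun y hy => ?_, ?_, fun y hy y' hy' hne => ?_⟩
  · obtain ⟨i, hi, rfl⟩ := mem_image.1 hy
    have hi' := mem_range.1 hi
    refine mem_inter.2 ⟨(hz i hi').1, mem_tball.2 ?_⟩
    have h4 := (hz i hi').2.2
    have h6 : (i + 1) * R ≤ ρ.m (k + 1) * R := Nat.mul_le_mul_right _ hi'
    rw [add_mul, one_mul] at h6
    rw [mul_assoc] at hRc
    omega
  · rw [card_image_of_injOn, card_range]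
    intro i hi j hj e
    by_contra hne
    have := h3 i (by simpa using hi) j (by simpa using hj) hne
    rw [e, tdist_self] at this
    omega
  · obtain ⟨i, hi, rfl⟩ := mem_image.1 hy
    obtain ⟨j, hj, rfl⟩ := mem_image.1 hy'
    have := h3 i (mem_range.1 hi) j (mem_range.1 hj) fun e => hne (e ▸ rfl)
    omega

end Wt

open Wt

/-- one step: only the level `cut` moves. Induction on `k`: `Fw k p ∈ C.mem (tball p (ρ.r k))`. -/
theorem Psi_mem {Ω : Type} (C : Cls (Tor d M) Ω) (ρ : Rad) {X : Finset (Tor d M)} {k1 K cut : ℕ}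
    (hX : Sep (4 * ρ.r k1 + 1) X) {base : ℕ → Tor d M → ℝ} {base' : Ω → ℕ → Tor d M → ℝ}
    (h0 : ∀ k p, 0 ≤ base k p) (h1 : ∀ ω k, k ≠ cut → base' ω k = base k)
    (h2 : ∀ p, C.mem (tball p (ρ.r cut)) (base cut p) fun ω => base' ω cut p) :
    C.mem univ (Psi ρ X k1 K cut base) fun ω => Psi ρ X k1 K cut (base' ω) := by
  classical
  have hF := Fw_mem C ρ h0 h1 h2
  refine C.add (C.prod X (U := fun x => tball x (2 * ρ.r k1)) (fun x hx y hy hne => ?_)
    (fun _ _ => subset_univ _) fun x _ => ?_) (C.sum X fun x _ => ?_)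
  · exact disjoint_tball (by have := hX x hx y hy hne; omega)
  · refine C.sum _ fun k hk => C.sum _ fun p hp => C.mono (tball_subset ?_) (hF k p)
    have h3 := mem_tball.1 hp
    have h4 : ρ.r (k + 1) ≤ ρ.r k1 := ρ.mono (mem_Ico.1 hk).2
    have h5 : ρ.r k ≤ ρ.r k1 := ρ.mono (mem_Ico.1 hk).2.le
    omega
  · exact C.sum _ fun k _ => C.sum _ fun p _ => C.mono (subset_univ _) (hF k p)

theorem Psi_mono (ρ : Rad) (X : Finset (Tor d M)) (k1 K cut : ℕ) {base base' : ℕ → Tor d M → ℝ}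
    (h0 : ∀ k p, 0 ≤ base k p) (h : ∀ k p, base k p ≤ base' k p) :
    Psi ρ X k1 K cut base ≤ Psi ρ X k1 K cut base' := by
  exact Psi_le ρ X k1 K h0 (Fw_mono ρ cut h0 h)

theorem Psi_nonneg (ρ : Rad) (X : Finset (Tor d M)) (k1 K cut : ℕ) {base : ℕ → Tor d M → ℝ}
    (h0 : ∀ k p, 0 ≤ base k p) : 0 ≤ Psi ρ X k1 K cut base := by
  exact add_nonneg (prod_nonneg fun x _ => Hw_nonneg ρ cut h0 _ _ x)
    (sum_nonneg fun x _ => Hw_nonneg ρ cut h0 _ _ x)

/-- change of epoch: level `cut` is replaced by the indicator of its seeds `P`; at level `cut+1`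
a crowded point may take the value `1`. -/
theorem Psi_next (ρ : Rad) (X : Finset (Tor d M)) (k1 K cut : ℕ) {base base' : ℕ → Tor d M → ℝ}
    {P : Finset (Tor d M)} (h0 : ∀ k p, 0 ≤ base' k p) (hP : ∀ p ∈ P, 1 ≤ base cut p)
    (h : ∀ k p, k ≠ cut + 1 → base' k p ≤ base k p)
    (h' : ∀ p, base' (cut + 1) p ≤ base (cut + 1) p ∨
      (Crowded ρ cut P p ∧ base' (cut + 1) p ≤ 1)) (h1 : ∀ p, 0 ≤ base (cut + 1) p) :
    Psi ρ X k1 K (cut + 1) base' ≤ Psi ρ X k1 K cut base := by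
  have hb : ∀ k p, 0 ≤ base k p := fun k p => by
    by_cases hk : k = cut + 1
    · subst hk; exact h1 p
    · exact (h0 k p).trans (h k p hk)
  refine Psi_le ρ X k1 K h0 fun k => ?_
  induction k with
  | zero => exact fun p => h 0 p (by omega)
  | succ k ih =>
    intro p
    rcases lt_trichotomy k cut with hk | rfl | hk
    · rw [Fw_of_le ρ _ (by omega), Fw_of_le ρ _ (by omega)]
      exact h _ p (by omega)
    · rw [Fw_of_le ρ _ le_rfl]
      rcases h' p with h2 | ⟨⟨S, hS1, hS2, hS3⟩, h2⟩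
      · exact h2.trans (base_le_Fw ρ k hb _ p)
      · rw [Fw_succ, if_neg (by omega)]
        have h3 := prod_le_crowd (Fw_nonneg ρ k hb k) (hS1.trans inter_subset_right) hS2 hS3
        have h4 : 1 ≤ ∏ q ∈ S, Fw ρ k base k q := one_le_prodR fun q hq =>
          (hP q (mem_inter.1 (hS1 hq)).1).trans (base_le_Fw ρ k hb k q)
        linarith [h1 p]
    · rw [Fw_succ, Fw_succ, if_neg (by omega), if_neg (by omega)]
      exact add_le_add (h _ p (by omega)) (crowd_mono _ _ _ (Fw_nonneg ρ _ h0 k) ih p)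

/-- all observers captured at low levels -/
theorem one_le_Psi_low (ρ : Rad) {X : Finset (Tor d M)} {k1 K cut : ℕ} {base : ℕ → Tor d M → ℝ}
    (h0 : ∀ k p, 0 ≤ base k p)
    (h : ∀ x ∈ X, ∃ k < k1, ∃ p, tdist p x ≤ ρ.r (k + 1) ∧ 1 ≤ base k p) :
    1 ≤ Psi ρ X k1 K cut base := by
  refine le_add_of_le_of_nonneg (one_le_prodR fun x hx => ?_)
    (sum_nonneg fun x _ => Hw_nonneg ρ cut h0 _ _ x)
  obtain ⟨k, hk, p, hp, h1⟩ := h x hx
  exact h1.trans (base_le_Hw ρ cut h0 (Nat.zero_le k) hk hp)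

/-- one observer captured at a high level -/
theorem one_le_Psi_high (ρ : Rad) {X : Finset (Tor d M)} {k1 K cut : ℕ} {base : ℕ → Tor d M → ℝ}
    (h0 : ∀ k p, 0 ≤ base k p) {x : Tor d M} (hx : x ∈ X) {k : ℕ} (hk : k1 - 1 ≤ k) (hK : k ≤ K)
    {p : Tor d M} (hp : tdist p x ≤ ρ.r (k + 1)) (h : 1 ≤ base k p) :
    1 ≤ Psi ρ X k1 K cut base := by
  refine le_add_of_nonneg_of_le (prod_nonneg fun x _ => Hw_nonneg ρ cut h0 _ _ x) ?_
  refine (h.trans (base_le_Hw ρ cut h0 hk (Nat.lt_succ_of_le hK) hp)).trans ?_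
  exact single_le_sum (f := fun x => Hw ρ cut base (k1 - 1) (K + 1) x)
    (fun x _ => Hw_nonneg ρ cut h0 _ _ x) hx

/-- initial value: `Fw k p ≤ 2 b k` by induction -/
theorem Psi_init (ρ : Rad) (X : Finset (Tor d M)) (k1 K : ℕ) {base : ℕ → Tor d M → ℝ} {b : ℕ → ℝ}
    {τ : ℝ} (h0 : ∀ k p, 0 ≤ base k p) (hb : ∀ k p, base k p ≤ b k)
    (hrec : ∀ k, (vol d M (ρ.Rc (k + 1)) * (2 * b k)) ^ ρ.m (k + 1) ≤ b (k + 1))
    (hlow : ∑ k ∈ range k1, vol d M (ρ.r (k + 1)) * (2 * b k) ≤ 1 / 2)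
    (hhigh : ∑ k ∈ Ico (k1 - 1) (K + 1), vol d M (ρ.r (k + 1)) * (2 * b k) ≤ τ) :
    Psi ρ X k1 K 0 base ≤ (1 / 2) ^ X.card + X.card * τ := by
  have hF : ∀ k p, Fw ρ 0 base k p ≤ 2 * b k := by
    intro k
    induction k with
    | zero => exact fun p => by rw [Fw_zero]; linarith [h0 0 p, hb 0 p]
    | succ k ih =>
      intro p
      rw [Fw_succ, if_neg (by omega)]
      linarith [hb (k + 1) p, hrec k, crowd_le (ρ.m (k + 1)) (2 * ρ.r k + 1) (ρ.Rc (k + 1))
        (Fw_nonneg ρ 0 h0 k) ih p]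
  have hH : ∀ a c x, Hw ρ 0 base a c x ≤ ∑ k ∈ Ico a c, vol d M (ρ.r (k + 1)) * (2 * b k) := by
    intro a c x
    refine sum_le_sum fun k _ => ?_
    rw [← card_tball x, ← nsmul_eq_mul]
    exact sum_le_card_nsmul _ _ _ fun p _ => hF k p
  refine add_le_add ?_ ?_
  · rw [← prod_const]
    refine prod_le_prod (fun x _ => Hw_nonneg ρ 0 h0 _ _ x) fun x _ => (hH _ _ x).trans ?_
    rwa [← range_eq_Ico]
  · rw [← nsmul_eq_mul]
    exact sum_le_card_nsmul _ _ _ fun x _ => (hH _ _ x).trans hhigh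

/-- CLUSTERS. `P` seeds of level `k`, `Q` seeds of level `k+1` (they contain the crowded points of
`P`), `R` isolation unit. `cl c` = connected component of `c` in `P` for the links `tdist ≤ 10 R`,
`Cs` = one representative of every component at distance `> 10 R` from `Q`. A component that leaves
the ball of radius `20 m R` around one of its points `p` has points in `m` annuli
`[20 i R, 20 i R + 10 R)`, so `p` is crowded. -/
theorem exists_clusters (ρ : Rad) (k R : ℕ) (P Q : Finset (Tor d M))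
    (hR : 2 * ρ.r k + 1 ≤ 10 * R) (hRc : 20 * ρ.m (k + 1) * R ≤ ρ.Rc (k + 1))
    (hQ : ∀ p ∈ P, Crowded ρ k P p → p ∈ Q) :
    ∃ (Cs : Finset (Tor d M)) (cl : Tor d M → Finset (Tor d M)),
      (∀ c ∈ Cs, c ∈ cl c ∧ cl c ⊆ P ∧ cl c ⊆ tball c (20 * ρ.m (k + 1) * R) ∧ c ∉ Q) ∧
      (∀ c ∈ Cs, ∀ p ∈ cl c, ∀ q ∈ P, q ∉ cl c → 10 * R < tdist p q) ∧
      (∀ c ∈ Cs, ∀ p ∈ cl c, ∀ q ∈ Q, 10 * R < tdist p q) ∧
      (∀ c ∈ Cs, ∀ c' ∈ Cs, c ≠ c' → Disjoint (cl c) (cl c')) ∧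
      (∀ p ∈ P, (∃ c ∈ Cs, p ∈ cl c) ∨ ∃ q ∈ Q, tdist p q ≤ 20 * ρ.m (k + 1) * R + 10 * R) := by
  classical
  let cl : Tor d M → Finset (Tor d M) := fun c => P.filter (Cn R P c)
  let pick : Finset (Tor d M) → Tor d M := fun s => if h : s.Nonempty then h.choose else 0
  have hpick : ∀ s : Finset (Tor d M), s.Nonempty → pick s ∈ s := fun s h => by
    simp only [pick, dif_pos h]
    exact h.choose_spec
  have hmem : ∀ c p, p ∈ cl c ↔ p ∈ P ∧ Cn R P c p := fun c p => mem_filter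
  have hself : ∀ c ∈ P, c ∈ cl c := fun c hc => (hmem c c).2 ⟨hc, Relation.ReflTransGen.refl⟩
  have heq : ∀ c p, p ∈ cl c → cl p = cl c := fun c p hp => by
    ext q
    rw [hmem, hmem]
    have h1 := ((hmem c p).1 hp).2
    exact and_congr_right fun _ => ⟨fun h => Relation.ReflTransGen.trans h1 h,
      fun h => Relation.ReflTransGen.trans h1.symm h⟩
  have hball : ∀ c ∈ P, c ∉ Q → cl c ⊆ tball c (20 * ρ.m (k + 1) * R) := fun c hc hcQ q hq =>
    mem_tball.2 (not_lt.1 fun h =>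
      hcQ (hQ c hc (crowded_of_far ρ hR hRc hc ((hmem c q).1 hq).2 h)))
  refine ⟨P.filter fun c => (∀ p ∈ cl c, ∀ q ∈ Q, 10 * R < tdist p q) ∧ pick (cl c) = c, cl,
    fun c hc => ?_, fun c _ p hp q hq hq' => ?_, fun c hc => (mem_filter.1 hc).2.1,
    fun c hc c' hc' hne => ?_, fun p hp => ?_⟩
  · obtain ⟨h1, h2, -⟩ := mem_filter.1 hc
    have h3 : c ∉ Q := fun h => by
      have := h2 c (hself c h1) c h
      rw [tdist_self] at this
      omega
    exact ⟨hself c h1, filter_subset _ _, hball c h1 h3, h3⟩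
  · by_contra h
    obtain ⟨h1, h2⟩ := (hmem c p).1 hp
    exact hq' ((hmem c q).2 ⟨hq, Relation.ReflTransGen.tail h2 ⟨h1, hq, not_lt.1 h⟩⟩)
  · refine disjoint_left.2 fun p hp hp' => hne ?_
    rw [← (mem_filter.1 hc).2.2, ← (mem_filter.1 hc').2.2, ← heq c p hp, ← heq c' p hp']
  · by_cases h : ∀ p' ∈ cl p, ∀ q ∈ Q, 10 * R < tdist p' q
    · have h1 := hpick (cl p) ⟨p, hself p hp⟩
      have h2 := heq p _ h1
      refine Or.inl ⟨pick (cl p), mem_filter.2 ⟨((hmem _ _).1 h1).1, ?_, ?_⟩, ?_⟩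
      · rwa [h2]
      · rw [h2]
      · rw [h2]; exact hself p hp
    · push Not at h
      obtain ⟨p', hp', q, hq, h⟩ := h
      by_cases hpQ : p ∈ Q
      · exact Or.inr ⟨p, hpQ, by rw [tdist_self]; omega⟩
      · refine Or.inr ⟨q, hq, ?_⟩
        have h1 := mem_tball.1 (hball p hp hpQ hp')
        have h2 := tdist_triangle p p' q
        rw [tdist_comm] at h1
        omega

/-- a point that is not crowded sees few sites near the seeds -/
theorem card_near_le (ρ : Rad) (k : ℕ) (P : Finset (Tor d M)) {p : Tor d M}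
    (hp : ¬ Crowded ρ k P p) {s D : ℕ} (hD : D + s ≤ ρ.Rc (k + 1)) :
    ((univ.filter fun x => tdist x p ≤ D ∧ ∃ q ∈ P, tdist x q ≤ s).card : ℝ) ≤
      ρ.m (k + 1) * vol d M (2 * ρ.r k + s) := by
  classical
  obtain ⟨S, hS1, hS2, hS3⟩ := exists_sep_cover (P ∩ tball p (ρ.Rc (k + 1))) (2 * ρ.r k)
  have h1 : S.card ≤ ρ.m (k + 1) := by
    by_contra h
    obtain ⟨S', h2, h3⟩ := exists_subset_card_eq (not_le.1 h).le
    exact hp ⟨S', h2.trans hS1, h3, hS2.mono le_rfl h2⟩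
  have h2 : (univ.filter fun x => tdist x p ≤ D ∧ ∃ q ∈ P, tdist x q ≤ s) ⊆
      S.biUnion fun c => tball c (2 * ρ.r k + s) := by
    intro x hx
    obtain ⟨-, h3, q, hq, h4⟩ := mem_filter.1 hx
    have h5 := tdist_triangle q x p
    rw [tdist_comm q x] at h5
    obtain ⟨c, hc, h6⟩ := hS3 q (mem_inter.2 ⟨hq, mem_tball.2 (by omega)⟩)
    have h7 := tdist_triangle x q c
    exact mem_biUnion.2 ⟨c, hc, mem_tball.2 (by omega)⟩
  have h3 : (((S.biUnion fun c => tball c (2 * ρ.r k + s)).card : ℕ) : ℝ) ≤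
      ∑ c ∈ S, ((tball c (2 * ρ.r k + s)).card : ℝ) := by exact_mod_cast card_biUnion_le
  simp only [card_tball, sum_const, nsmul_eq_mul] at h3
  refine le_trans (by exact_mod_cast card_le_card h2) (h3.trans ?_)
  exact mul_le_mul_of_nonneg_right (by exact_mod_cast h1) (zero_le_one.trans (one_le_vol _))

end Crest.Agent.N334.AC
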